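import Vale.Agent.P286.H166.Wk1

/-!
# The Weil algebra `Wk`: the augmentation and the change of the number of generators `ξ`
-/

namespace Vale.Agent.P286.H847.Wk

open H166 H166.Fr TensorProduct Matrix

noncomputable section

set_option linter.unusedSectionVars false

variable {I : Type} [Fintype I] [DecidableEq I] {n : ℕ}

section Ext

variable {B : Type*} [Ring B] [Algebra ℂ B]

/-- A derivation along two homomorphisms which vanishes on the generators is zero. -/
theorem der_eq_zero (φ ψ : Wk I n →ₐ[ℂ] B) (T : Wk I n →ₗ[ℂ] B)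
    (h : ∀ x z, T (x * z) = T x * φ z + ψ x * T z) (hg : ∀ a, T (gn I n a) = 0)
    (hF : ∀ i j, T (Fm I n i j) = 0) : T = 0 := by
  have h1 : T 1 = 0 := by
    have := h 1 1
    rwa [mul_one, map_one φ, map_one ψ, mul_one, one_mul, left_eq_add] at this
  have h2 : ∀ f, T (inP I n f) = 0 := by
    intro f
    induction f using MvPolynomial.induction_on with
    | C a =>
      rw [← MvPolynomial.algebraMap_eq, AlgHom.commutes, Algebra.algebraMap_eq_smul_one, map_smul,
        h1, smul_zero]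
    | add p q hp hq => rw [map_add, map_add, hp, hq, add_zero]
    | mul_X p s hp =>
      rw [map_mul, h, hp, zero_mul, zero_add, ← Fm_apply s.1 s.2, hF, mul_zero]
  refine LinearMap.ext fun x => ?_
  induction x using ind with
  | hp f => rw [h2, LinearMap.zero_apply]
  | ho a x hx => rw [h, hg, zero_mul, hx, LinearMap.zero_apply, mul_zero, add_zero,
      LinearMap.zero_apply]
  | hs c x hx => rw [map_smul, map_smul, hx]
  | ha x z hx hz => rw [map_add, map_add, hx, hz]

/-- Homomorphisms of algebras are determined by their values on the generators. -/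
theorem algHom_ext {φ ψ : Wk I n →ₐ[ℂ] B} (hg : ∀ a, φ (gn I n a) = ψ (gn I n a))
    (hF : ∀ i j, φ (Fm I n i j) = ψ (Fm I n i j)) : φ = ψ := by
  have h := der_eq_zero φ ψ (φ.toLinearMap - ψ.toLinearMap) (fun x z => ?_) (fun a => ?_)
    (fun i j => ?_)
  · refine AlgHom.ext fun x => ?_
    have := congrArg (fun T : Wk I n →ₗ[ℂ] B => T x) h
    simpa [sub_eq_zero] using this
  · simp only [LinearMap.sub_apply, AlgHom.toLinearMap_apply, map_mul]
    noncomm_ring
  · simp only [LinearMap.sub_apply, AlgHom.toLinearMap_apply, hg, sub_self]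
  · simp only [LinearMap.sub_apply, AlgHom.toLinearMap_apply, hF, sub_self]

end Ext

/-! ### The augmentation -/

theorem d_apply (x : Wk I n) :
    d I n x = ∑ a, dgn I n a * ct I n a x + ∑ s, dF I n s * pd I n s x := by
  rw [d, LinearMap.add_apply, LinearMap.sum_apply, LinearMap.sum_apply]
  rfl

theorem eps_th (i j : I) : eps I n (th I n i j) = 0 := eps_gn _

theorem eps_xi (t : Fin n) : eps I n (xi I n t) = 0 := eps_gn _

theorem eps_dgn (a : Gn I n) : eps I n (dgn I n a) = 0 := by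
  rcases a with ⟨i, j⟩ | t
  · change eps I n ((Fm I n - th I n * th I n) i j) = 0
    rw [Matrix.sub_apply, map_sub, eps_Fm, Matrix.mul_apply, map_sum, zero_sub, neg_eq_zero]
    exact Finset.sum_eq_zero fun k _ => by rw [map_mul, eps_th, zero_mul]
  · exact eps_y t

theorem eps_dF (s : I × I) : eps I n (dF I n s) = 0 := by
  obtain ⟨i, j⟩ := s
  change eps I n ((Fm I n * th I n - th I n * Fm I n) i j) = 0
  rw [Matrix.sub_apply, map_sub, Matrix.mul_apply, Matrix.mul_apply, map_sum, map_sum]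
  rw [Finset.sum_eq_zero fun k _ => by rw [map_mul, eps_th, mul_zero],
    Finset.sum_eq_zero fun k _ => by rw [map_mul, eps_th, zero_mul], sub_zero]

theorem eps_d (x : Wk I n) : eps I n (d I n x) = 0 := by
  rw [d_apply, map_add, map_sum, map_sum, Finset.sum_eq_zero fun a _ => by
    rw [map_mul, eps_dgn, zero_mul], Finset.sum_eq_zero fun a _ => by
    rw [map_mul, eps_dF, zero_mul], add_zero]

theorem eps_sg (x : Wk I n) : eps I n (sgA I n x) = eps I n x := by
  have h : (eps I n).comp (sgA I n) = eps I n := algHom_ext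
    (fun a => by rw [AlgHom.comp_apply, sgA_gn, map_neg, eps_gn, neg_zero])
    (fun i j => by rw [AlgHom.comp_apply, sgA_Fm])
  exact congrArg (fun T : Wk I n →ₐ[ℂ] ℂ => T x) h

/-- The augmentation vanishes in nonzero degrees. -/
theorem eps_gr {m : ℤ} (hm : m ≠ 0) {x : Wk I n} (hx : x ∈ gr I n m) : eps I n x = 0 := by
  have h : ∀ x : Wk I n, eps I n (Nm I n x) = 0 := by
    intro x
    rw [Nm, LinearMap.add_apply, LinearMap.sum_apply, LinearMap.sum_apply, map_add, map_sum,
      map_sum]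
    rw [Finset.sum_eq_zero, Finset.sum_eq_zero, add_zero]
    · intro s _
      rw [LinearMap.smul_apply, map_smul, LinearMap.comp_apply, LinearMap.mulLeft_apply, map_mul,
        eps_Fm, zero_mul, smul_zero]
    · intro a _
      rw [LinearMap.smul_apply, map_smul, LinearMap.comp_apply, LinearMap.mulLeft_apply, map_mul,
        eps_gn, zero_mul, smul_zero]
  have h2 := h x
  rw [mem_gr.1 hx, map_smul, smul_eq_mul] at h2
  exact (mul_eq_zero.1 h2).resolve_left (Int.cast_ne_zero.2 hm)

/-! ### The homomorphism `ξ ↦ 0` -/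

theorem rs_inP (f : Pl I) : rs I n (inP I n f) = inP I 0 f := by
  change (Algebra.TensorProduct.map _ _ : Wk I n →ₐ[ℂ] Wk I 0) (1 ⊗ₜ[ℂ] f) = _
  rw [Algebra.TensorProduct.map_tmul, map_one]
  rfl

theorem rs_inL (l : Lm I n) : rs I n (inL I n l) = inL I 0 (ExteriorAlgebra.map
    (LinearMap.pi fun a : Gn I 0 =>
      LinearMap.proj (Sum.elim (fun p => (Sum.inl p : Gn I n)) (fun t => t.elim0) a)) l) := by
  change (Algebra.TensorProduct.map _ _ : Wk I n →ₐ[ℂ] Wk I 0) (l ⊗ₜ[ℂ] 1) = _
  rw [Algebra.TensorProduct.map_tmul, map_one]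
  rfl

theorem rs_Fm (i j : I) : rs I n (Fm I n i j) = Fm I 0 i j := rs_inP _

theorem rs_th (i j : I) : rs I n (th I n i j) = th I 0 i j := by
  rw [th, gn, rs_inL, ExteriorAlgebra.map_apply_ι]
  change inL I 0 _ = inL I 0 _
  congr 2
  ext a
  rcases a with p | t
  · simp only [LinearMap.pi_apply, Sum.elim_inl, LinearMap.proj_apply, Pi.single_apply,
      Sum.inl.injEq]
  · exact t.elim0

theorem rs_xi (t : Fin n) : rs I n (xi I n t) = 0 := by
  rw [xi, gn, rs_inL, ExteriorAlgebra.map_apply_ι, ← map_zero (inL I 0),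
    ← map_zero (ExteriorAlgebra.ι ℂ)]
  congr 2
  ext a
  rcases a with p | t
  · simp
  · exact t.elim0

theorem im_inP (f : Pl I) : im I n (inP I 0 f) = inP I n f := by
  change (Algebra.TensorProduct.map _ _ : Wk I 0 →ₐ[ℂ] Wk I n) (1 ⊗ₜ[ℂ] f) = _
  rw [Algebra.TensorProduct.map_tmul, map_one]
  rfl

theorem im_inL (l : Lm I 0) : im I n (inL I 0 l) = inL I n (ExteriorAlgebra.map
    (LinearMap.pi fun a : Gn I n =>
      Sum.elim (fun p => LinearMap.proj (Sum.inl p : Gn I 0)) (fun _ => 0) a) l) := by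
  change (Algebra.TensorProduct.map _ _ : Wk I 0 →ₐ[ℂ] Wk I n) (l ⊗ₜ[ℂ] 1) = _
  rw [Algebra.TensorProduct.map_tmul, map_one]
  rfl

theorem im_Fm (i j : I) : im I n (Fm I 0 i j) = Fm I n i j := im_inP _

theorem im_th (i j : I) : im I n (th I 0 i j) = th I n i j := by
  rw [th, gn, im_inL, ExteriorAlgebra.map_apply_ι]
  change inL I n _ = inL I n _
  congr 2
  ext a
  rcases a with p | t
  · simp only [LinearMap.pi_apply, Sum.elim_inl, LinearMap.proj_apply, Pi.single_apply,
      Sum.inl.injEq]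
  · simp

theorem gn0 (a : Gn I 0) : ∃ i j, gn I 0 a = th I 0 i j := by
  rcases a with ⟨i, j⟩ | t
  · exact ⟨i, j, rfl⟩
  · exact t.elim0

theorem rs_im (w : Wk I 0) : rs I n (im I n w) = w := by
  have h : (rs I n).comp (im I n) = AlgHom.id ℂ _ := algHom_ext
    (fun a => by
      obtain ⟨i, j, h⟩ := gn0 a
      rw [h, AlgHom.comp_apply, im_th, rs_th]; rfl)
    (fun i j => by rw [AlgHom.comp_apply, im_Fm, rs_Fm]; rfl)
  exact congrArg (fun T : Wk I 0 →ₐ[ℂ] Wk I 0 => T w) h

theorem eps_im (w : Wk I 0) : eps I n (im I n w) = eps I 0 w := by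
  have h : (eps I n).comp (im I n) = eps I 0 := algHom_ext
    (fun a => by
      obtain ⟨i, j, h⟩ := gn0 a
      rw [h, AlgHom.comp_apply, im_th, eps_th, eps_th])
    (fun i j => by rw [AlgHom.comp_apply, im_Fm, eps_Fm, eps_Fm])
  exact congrArg (fun T : Wk I 0 →ₐ[ℂ] ℂ => T w) h

theorem eps_rs (w : Wk I n) : eps I 0 (rs I n w) = eps I n w := by
  have h : (eps I 0).comp (rs I n) = eps I n := algHom_ext
    (fun a => by
      rcases a with ⟨i, j⟩ | t
      · change eps I 0 (rs I n (th I n i j)) = eps I n (th I n i j)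
        rw [rs_th, eps_th, eps_th]
      · change eps I 0 (rs I n (xi I n t)) = eps I n (xi I n t)
        rw [rs_xi, map_zero, eps_xi])
    (fun i j => by rw [AlgHom.comp_apply, rs_Fm, eps_Fm, eps_Fm])
  exact congrArg (fun T : Wk I n →ₐ[ℂ] ℂ => T w) h

theorem sgA_im (w : Wk I 0) : sgA I n (im I n w) = im I n (sgA I 0 w) := by
  have h : (sgA I n).comp (im I n) = (im I n).comp (sgA I 0) := algHom_ext
    (fun a => by
      obtain ⟨i, j, h⟩ := gn0 a
      rw [h, AlgHom.comp_apply, AlgHom.comp_apply, im_th, sgA_th, sgA_th, map_neg, im_th])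
    (fun i j => by
      rw [AlgHom.comp_apply, AlgHom.comp_apply, im_Fm, sgA_Fm, sgA_Fm, im_Fm])
  exact congrArg (fun T : Wk I 0 →ₐ[ℂ] Wk I n => T w) h

theorem sgA_rs (w : Wk I n) : sgA I 0 (rs I n w) = rs I n (sgA I n w) := by
  have h : (sgA I 0).comp (rs I n) = (rs I n).comp (sgA I n) := algHom_ext
    (fun a => by
      rcases a with ⟨i, j⟩ | t
      · change sgA I 0 (rs I n (th I n i j)) = rs I n (sgA I n (th I n i j))
        rw [rs_th, sgA_th, sgA_th, map_neg, rs_th]
      · change sgA I 0 (rs I n (xi I n t)) = rs I n (sgA I n (xi I n t))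
        rw [rs_xi, sgA_xi, map_neg, rs_xi, map_zero, neg_zero])
    (fun i j => by
      rw [AlgHom.comp_apply, AlgHom.comp_apply, rs_Fm, sgA_Fm, sgA_Fm, rs_Fm])
  exact congrArg (fun T : Wk I n →ₐ[ℂ] Wk I 0 => T w) h

theorem im_mat (A B : Matrix I I (Wk I 0)) : (A * B).map (im I n) = A.map (im I n) * B.map (im I n) :=
  Matrix.map_mul

theorem d_im (w : Wk I 0) : d I n (im I n w) = im I n (d I 0 w) := by
  have h := der_eq_zero (im I n) ((im I n).comp (sgA I 0))
    (d I n ∘ₗ (im I n).toLinearMap - (im I n).toLinearMap ∘ₗ d I 0) (fun x z => ?_) (fun a => ?_)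
    (fun i j => ?_)
  · have := congrArg (fun T : Wk I 0 →ₗ[ℂ] Wk I n => T w) h
    simpa [sub_eq_zero] using this
  · simp only [LinearMap.sub_apply, LinearMap.comp_apply, AlgHom.toLinearMap_apply,
      AlgHom.comp_apply]
    rw [map_mul, d_mul, d_mul, map_add, map_mul, map_mul, sgA_im, sub_mul, mul_sub]
    abel
  · obtain ⟨i, j, h⟩ := gn0 a
    simp only [LinearMap.sub_apply, LinearMap.comp_apply, AlgHom.toLinearMap_apply]
    rw [h, im_th, d_th, d_th, sub_eq_zero, Matrix.sub_apply, Matrix.sub_apply, map_sub, im_Fm,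
      Matrix.mul_apply, Matrix.mul_apply, map_sum]
    congr 1
    exact Finset.sum_congr rfl fun k _ => by rw [map_mul, im_th, im_th]
  · simp only [LinearMap.sub_apply, LinearMap.comp_apply, AlgHom.toLinearMap_apply]
    rw [im_Fm, d_Fm, d_Fm, sub_eq_zero, Matrix.sub_apply, Matrix.sub_apply, map_sub,
      Matrix.mul_apply, Matrix.mul_apply, Matrix.mul_apply, Matrix.mul_apply, map_sum, map_sum]
    congr 1 <;> exact Finset.sum_congr rfl fun k _ => by rw [map_mul, im_th, im_Fm]

theorem e_im (t : Fin n) (w : Wk I 0) : e I n t (im I n w) = 0 := by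
  have h := der_eq_zero (im I n) ((sgA I n).comp (im I n)) (e I n t ∘ₗ (im I n).toLinearMap)
    (fun x z => ?_) (fun a => ?_) (fun i j => ?_)
  · exact congrArg (fun T : Wk I 0 →ₗ[ℂ] Wk I n => T w) h
  · simp only [LinearMap.comp_apply, AlgHom.toLinearMap_apply, AlgHom.comp_apply]
    rw [map_mul, e_mul]
  · obtain ⟨i, j, h⟩ := gn0 a
    simp only [LinearMap.comp_apply, AlgHom.toLinearMap_apply]
    rw [h, im_th, e_th]
  · simp only [LinearMap.comp_apply, AlgHom.toLinearMap_apply]
    rw [im_Fm, e_Fm]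

/-- The homomorphism `ξ ↦ 0` and the differential. -/
theorem rs_d (w : Wk I n) : rs I n (d I n w) = d I 0 (rs I n w) +
    ∑ t : Fin n, inP I 0 (ep I (2 * ((t : ℕ) + 1))) * rs I n (e I n t w) := by
  have h := der_eq_zero (rs I n) ((sgA I 0).comp (rs I n))
    ((rs I n).toLinearMap ∘ₗ d I n - d I 0 ∘ₗ (rs I n).toLinearMap -
      ∑ t : Fin n, LinearMap.mulLeft ℂ (inP I 0 (ep I (2 * ((t : ℕ) + 1)))) ∘ₗ
        (rs I n).toLinearMap ∘ₗ e I n t) (fun x z => ?_) (fun a => ?_) (fun i j => ?_)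
  · have := congrArg (fun T : Wk I n →ₗ[ℂ] Wk I 0 => T w) h
    simp only [LinearMap.sub_apply, LinearMap.comp_apply, AlgHom.toLinearMap_apply,
      LinearMap.sum_apply, LinearMap.mulLeft_apply, LinearMap.zero_apply] at this
    rw [sub_sub, sub_eq_zero] at this
    exact this
  · simp only [LinearMap.sub_apply, LinearMap.comp_apply, AlgHom.toLinearMap_apply,
      AlgHom.comp_apply, LinearMap.sum_apply, LinearMap.mulLeft_apply]
    have h1 : ∀ t : Fin n, inP I 0 (ep I (2 * ((t : ℕ) + 1))) * rs I n (e I n t (x * z)) =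
        inP I 0 (ep I (2 * ((t : ℕ) + 1))) * rs I n (e I n t x) * rs I n z +
        sgA I 0 (rs I n x) * (inP I 0 (ep I (2 * ((t : ℕ) + 1))) * rs I n (e I n t z)) := by
      intro t
      rw [e_mul, map_add, map_mul, map_mul, mul_add, ← mul_assoc, ← mul_assoc, ← mul_assoc,
        inP_comm _ (rs I n (sgA I n x)), sgA_rs]
    rw [Finset.sum_congr rfl fun t _ => h1 t, Finset.sum_add_distrib, ← Finset.sum_mul,
      ← Finset.mul_sum, d_mul, map_mul, d_mul, map_add, map_mul, map_mul, ← sgA_rs, sub_mul,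
      sub_mul, mul_sub, mul_sub]
    abel
  · simp only [LinearMap.sub_apply, LinearMap.comp_apply, AlgHom.toLinearMap_apply,
      LinearMap.sum_apply, LinearMap.mulLeft_apply]
    rcases a with ⟨i, j⟩ | t
    · change rs I n (d I n (th I n i j)) - d I 0 (rs I n (th I n i j)) -
        ∑ t : Fin n, inP I 0 (ep I (2 * ((t : ℕ) + 1))) * rs I n (e I n t (th I n i j)) = 0
      rw [Finset.sum_eq_zero fun t _ => by rw [e_th, map_zero, mul_zero], sub_zero, rs_th, d_th,
        d_th, sub_eq_zero, Matrix.sub_apply, Matrix.sub_apply, map_sub, rs_Fm,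
        Matrix.mul_apply, Matrix.mul_apply, map_sum]
      congr 1
      exact Finset.sum_congr rfl fun k _ => by rw [map_mul, rs_th, rs_th]
    · change rs I n (d I n (xi I n t)) - d I 0 (rs I n (xi I n t)) -
        ∑ u : Fin n, inP I 0 (ep I (2 * ((u : ℕ) + 1))) * rs I n (e I n u (xi I n t)) = 0
      rw [rs_xi, map_zero, sub_zero, d_xi, y, rs_inP, Finset.sum_eq_single t]
      · rw [e_xi, if_pos rfl, map_one, mul_one, sub_self]
      · intro u _ hu
        rw [e_xi, if_neg hu, map_zero, mul_zero]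
      · intro hh
        exact absurd (Finset.mem_univ t) hh
  · simp only [LinearMap.sub_apply, LinearMap.comp_apply, AlgHom.toLinearMap_apply,
      LinearMap.sum_apply, LinearMap.mulLeft_apply]
    rw [Finset.sum_eq_zero fun t _ => by rw [e_Fm, map_zero, mul_zero], sub_zero, rs_Fm, d_Fm,
      d_Fm, sub_eq_zero, Matrix.sub_apply, Matrix.sub_apply, map_sub,
      Matrix.mul_apply, Matrix.mul_apply, Matrix.mul_apply, Matrix.mul_apply, map_sum, map_sum]
    congr 1 <;> exact Finset.sum_congr rfl fun k _ => by rw [map_mul, rs_th, rs_Fm]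

theorem Nm_im (w : Wk I 0) : Nm I n (im I n w) = im I n (Nm I 0 w) := by
  have h := der_eq_zero (im I n) (im I n)
    (Nm I n ∘ₗ (im I n).toLinearMap - (im I n).toLinearMap ∘ₗ Nm I 0) (fun x z => ?_)
    (fun a => ?_) (fun i j => ?_)
  · have := congrArg (fun T : Wk I 0 →ₗ[ℂ] Wk I n => T w) h
    simpa [sub_eq_zero] using this
  · simp only [LinearMap.sub_apply, LinearMap.comp_apply, AlgHom.toLinearMap_apply]
    rw [map_mul, Nm_mul, Nm_mul, map_add, map_mul, map_mul, sub_mul, mul_sub]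
    abel
  · rcases a with ⟨i, j⟩ | t
    · simp only [LinearMap.sub_apply, LinearMap.comp_apply, AlgHom.toLinearMap_apply]
      rw [Nm_gn, map_smul]
      change Nm I n (im I n (th I 0 i j)) - _ • im I n (th I 0 i j) = 0
      rw [im_th, sub_eq_zero]
      exact Nm_gn (Sum.inl (i, j))
    · exact t.elim0
  · simp only [LinearMap.sub_apply, LinearMap.comp_apply, AlgHom.toLinearMap_apply]
    have e1 : ∀ (m : ℕ), Nm I m (Fm I m i j) = (2 : ℂ) • Fm I m i j := by
      intro m
      have := mem_gr.1 (Fm_gr (n := m) i j)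
      rwa [Int.cast_ofNat] at this
    rw [im_Fm, e1, e1, map_smul, im_Fm, sub_self]

theorem im_gr {m : ℤ} {w : Wk I 0} (hw : w ∈ gr I 0 m) : im I n w ∈ gr I n m := by
  rw [mem_gr] at hw ⊢
  rw [Nm_im, hw, map_smul]

theorem Nm_rs (w : Wk I n) : Nm I 0 (rs I n w) = rs I n (Nm I n w) := by
  have h := der_eq_zero (rs I n) (rs I n)
    (Nm I 0 ∘ₗ (rs I n).toLinearMap - (rs I n).toLinearMap ∘ₗ Nm I n) (fun x z => ?_)
    (fun a => ?_) (fun i j => ?_)
  · have := congrArg (fun T : Wk I n →ₗ[ℂ] Wk I 0 => T w) h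
    simpa [sub_eq_zero] using this
  · simp only [LinearMap.sub_apply, LinearMap.comp_apply, AlgHom.toLinearMap_apply]
    rw [map_mul, Nm_mul, Nm_mul, map_add, map_mul, map_mul, sub_mul, mul_sub]
    abel
  · rcases a with ⟨i, j⟩ | t
    · simp only [LinearMap.sub_apply, LinearMap.comp_apply, AlgHom.toLinearMap_apply]
      rw [Nm_gn, map_smul]
      change Nm I 0 (rs I n (th I n i j)) - _ • rs I n (th I n i j) = 0
      rw [rs_th, sub_eq_zero]
      exact Nm_gn (Sum.inl (i, j))
    · simp only [LinearMap.sub_apply, LinearMap.comp_apply, AlgHom.toLinearMap_apply]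
      rw [Nm_gn, map_smul]
      change Nm I 0 (rs I n (xi I n t)) - _ • rs I n (xi I n t) = 0
      rw [rs_xi, map_zero, smul_zero, sub_zero]
  · simp only [LinearMap.sub_apply, LinearMap.comp_apply, AlgHom.toLinearMap_apply]
    have e1 : ∀ (m : ℕ), Nm I m (Fm I m i j) = (2 : ℂ) • Fm I m i j := by
      intro m
      have := mem_gr.1 (Fm_gr (n := m) i j)
      rwa [Int.cast_ofNat] at this
    rw [rs_Fm, e1, e1, map_smul, rs_Fm, sub_self]

theorem rs_gr {m : ℤ} {w : Wk I n} (hw : w ∈ gr I n m) : rs I n w ∈ gr I 0 m := by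
  rw [mem_gr] at hw ⊢
  rw [Nm_rs, hw, map_smul]

end

end Vale.Agent.P286.H847.Wk
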