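import Vale.Agent.P286.H166.WkD
import Vale.Agent.P286.H847.WkDef
import Vale.Agent.P286.H847.Ten
import Vale.Agent.P286.H802.CW

/-!
# The Weil algebra `Wk`: calculus
-/

namespace Vale.Agent.P286.H847.Wk

open H166 H166.Fr TensorProduct Matrix

noncomputable section

set_option linter.unusedSectionVars false

variable {I : Type} [Fintype I] [DecidableEq I] {n : ℕ}

/-! ### The ring -/

theorem ct_eq (a : Gn I n) : ct I n a = (do' a : Fr (Gn I n) (I × I) →ₗ[ℂ] Fr (Gn I n) (I × I)) :=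
  rfl

theorem pd_eq (s : I × I) : pd I n s = (dp s : Fr (Gn I n) (I × I) →ₗ[ℂ] Fr (Gn I n) (I × I)) :=
  rfl

theorem gn_eq (a : Gn I n) : gn I n a = (o a : Fr (Gn I n) (I × I)) := rfl

theorem Fm_apply (i j : I) : Fm I n i j = inP I n (MvPolynomial.X (i, j)) := rfl

theorem Fm_eq (i j : I) : Fm I n i j = (Fr.e (i, j) : Fr (Gn I n) (I × I)) := rfl

theorem inP_eq (f : Pl I) : inP I n f = (pl f : Fr (Gn I n) (I × I)) := rfl

theorem sgA_eq (x : Wk I n) : sgA I n x = (Fr.sg (x : Fr (Gn I n) (I × I))) := rfl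

theorem sg_eq (x : Wk I n) : sg I n x = sgA I n x := rfl

theorem sgA_sgA (x : Wk I n) : sgA I n (sgA I n x) = x := Fr.sg_sg (σ := I × I) x

theorem sgA_gn (a : Gn I n) : sgA I n (gn I n a) = -gn I n a := Fr.sg_o (σ := I × I) a

theorem sgA_th (i j : I) : sgA I n (th I n i j) = -th I n i j := sgA_gn _

theorem sgA_xi (t : Fin n) : sgA I n (xi I n t) = -xi I n t := sgA_gn _

theorem sgA_inP (f : Pl I) : sgA I n (inP I n f) = inP I n f := Fr.sg_pl f

theorem sgA_Fm (i j : I) : sgA I n (Fm I n i j) = Fm I n i j := sgA_inP _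

theorem sgA_y (t : Fin n) : sgA I n (y I n t) = y I n t := sgA_inP _

theorem inP_comm (f : Pl I) (x : Wk I n) : inP I n f * x = x * inP I n f :=
  Fr.pl_comm (τ := Gn I n) f x

theorem Fm_comm (i j : I) (x : Wk I n) : Fm I n i j * x = x * Fm I n i j := inP_comm _ x

theorem y_comm (t : Fin n) (x : Wk I n) : y I n t * x = x * y I n t := inP_comm _ x

theorem gn_comm (a : Gn I n) (x : Wk I n) : gn I n a * x = sgA I n x * gn I n a :=
  Fr.o_comm (σ := I × I) a x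

theorem even_comm {x : Wk I n} (h : sgA I n x = x) (z : Wk I n) : x * z = z * x :=
  Fr.even_comm (τ := Gn I n) (σ := I × I) h z

theorem odd_comm {x : Wk I n} (h : sgA I n x = -x) (z : Wk I n) : x * z = sgA I n z * x :=
  Fr.odd_comm (τ := Gn I n) (σ := I × I) h z

theorem gn_gn (a b : Gn I n) : gn I n a * gn I n b = -(gn I n b * gn I n a) :=
  Fr.o_o (σ := I × I) a b

/-- Induction. -/
theorem ind {P : Wk I n → Prop} (hp : ∀ f, P (inP I n f)) (ho : ∀ a x, P x → P (gn I n a * x))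
    (hs : ∀ (c : ℂ) x, P x → P (c • x)) (ha : ∀ x y, P x → P y → P (x + y)) (x : Wk I n) :
    P x :=
  Fr.indo (τ := Gn I n) (σ := I × I) (P := P) hp ho hs ha x

/-! ### Derivations -/

theorem ct_mul (a : Gn I n) (x z : Wk I n) :
    ct I n a (x * z) = ct I n a x * z + sgA I n x * ct I n a z :=
  Fr.dt_mul (σ := I × I) (LinearMap.proj a) x z

theorem pd_mul (s : I × I) (x z : Wk I n) : pd I n s (x * z) = pd I n s x * z + x * pd I n s z :=
  Fr.dp_mul (τ := Gn I n) s x z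

theorem ct_gn (a b : Gn I n) : ct I n a (gn I n b) = if a = b then 1 else 0 :=
  Fr.do_o (σ := I × I) a b

theorem ct_inP (a : Gn I n) (f : Pl I) : ct I n a (inP I n f) = 0 := Fr.do_pl a f

theorem pd_gn (s : I × I) (a : Gn I n) : pd I n s (gn I n a) = 0 := Fr.dp_o s a

theorem pd_inP (s : I × I) (f : Pl I) : pd I n s (inP I n f) = inP I n (MvPolynomial.pderiv s f) :=
  rfl

theorem ct_ct (a b : Gn I n) (x : Wk I n) : ct I n a (ct I n b x) = -ct I n b (ct I n a x) :=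
  Fr.dt_dt (σ := I × I) (LinearMap.proj a) (LinearMap.proj b) x

theorem ct_sg (a : Gn I n) (x : Wk I n) : sgA I n (ct I n a x) = -ct I n a (sgA I n x) :=
  Fr.dt_sg (σ := I × I) (LinearMap.proj a) x

theorem pd_sg (s : I × I) (x : Wk I n) : sgA I n (pd I n s x) = pd I n s (sgA I n x) :=
  Fr.dp_sg (τ := Gn I n) s x

/-! ### The differential -/

theorem d_eq : (d I n : WkD.RR I n →ₗ[ℂ] WkD.RR I n) = WkD.D I n := rfl

theorem d_mul (x z : Wk I n) : d I n (x * z) = d I n x * z + sgA I n x * d I n z :=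
  WkD.isOD_D.mul x z

theorem d_sg (x : Wk I n) : sgA I n (d I n x) = -d I n (sgA I n x) := WkD.sgA_D x

theorem d_d (x : Wk I n) : d I n (d I n x) = 0 := WkD.D_D x

theorem d_one : d I n 1 = 0 := WkD.isOD_D.one

theorem d_th (i j : I) : d I n (th I n i j) = (Fm I n - th I n * th I n) i j := WkD.D_Tm i j

theorem d_Fm (i j : I) : d I n (Fm I n i j) = (Fm I n * th I n - th I n * Fm I n) i j :=
  WkD.D_Gm i j

theorem d_xi (t : Fin n) : d I n (xi I n t) = y I n t := WkD.D_xi t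

theorem d_y (t : Fin n) : d I n (y I n t) = 0 := WkD.D_yy t

theorem d_ep (k : ℕ) : d I n (inP I n (ep I k)) = 0 := WkD.D_ep k

theorem d_gn (a : Gn I n) : d I n (gn I n a) = dgn I n a := Fr.od_o _ _ a

/-- Maps which agree on generators. -/
theorem od_ext {T T' : Wk I n →ₗ[ℂ] Wk I n}
    (h : ∀ x z, T (x * z) = T x * z + sgA I n x * T z)
    (h' : ∀ x z, T' (x * z) = T' x * z + sgA I n x * T' z)
    (ho : ∀ a, T (gn I n a) = T' (gn I n a))
    (he : ∀ i j, T (Fm I n i j) = T' (Fm I n i j)) : T = T' :=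
  Fr.IsOD.ext (τ := Gn I n) (σ := I × I) ⟨h⟩ ⟨h'⟩ ho fun s => he s.1 s.2

theorem ed_ext {T T' : Wk I n →ₗ[ℂ] Wk I n}
    (h : ∀ x z, T (x * z) = T x * z + x * T z)
    (h' : ∀ x z, T' (x * z) = T' x * z + x * T' z)
    (ho : ∀ a, T (gn I n a) = T' (gn I n a))
    (he : ∀ i j, T (Fm I n i j) = T' (Fm I n i j)) : T = T' :=
  Fr.IsED.ext (τ := Gn I n) (σ := I × I) ⟨h⟩ ⟨h'⟩ ho fun s => he s.1 s.2

/-! ### The operators `e_t` -/

theorem e_mul (t : Fin n) (x z : Wk I n) :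
    e I n t (x * z) = e I n t x * z + sgA I n x * e I n t z := ct_mul _ x z

theorem e_th (t : Fin n) (i j : I) : e I n t (th I n i j) = 0 := by
  refine (ct_gn (Sum.inr t) (Sum.inl (i, j))).trans ?_
  rw [if_neg]
  exact fun h => Sum.inr_ne_inl h

theorem e_xi (t u : Fin n) : e I n t (xi I n u) = if t = u then 1 else 0 := by
  refine (ct_gn (Sum.inr t) (Sum.inr u)).trans ?_
  simp only [Sum.inr.injEq]

theorem e_inP (t : Fin n) (f : Pl I) : e I n t (inP I n f) = 0 := ct_inP _ f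

theorem e_Fm (t : Fin n) (i j : I) : e I n t (Fm I n i j) = 0 := e_inP _ _

theorem e_y (t u : Fin n) : e I n t (y I n u) = 0 := e_inP _ _

theorem e_e (t u : Fin n) (x : Wk I n) : e I n t (e I n u x) = -e I n u (e I n t x) := ct_ct _ _ x

theorem e_sg (t : Fin n) (x : Wk I n) : sgA I n (e I n t x) = -e I n t (sgA I n x) := ct_sg _ x

theorem e_y_mul (t u : Fin n) (x : Wk I n) : e I n t (y I n u * x) = y I n u * e I n t x := by
  rw [e_mul, e_y, zero_mul, zero_add, sgA_y]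

theorem d_y_mul (u : Fin n) (x : Wk I n) : d I n (y I n u * x) = y I n u * d I n x := by
  rw [d_mul, d_y, zero_mul, zero_add, sgA_y]

theorem e_d (t : Fin n) (x : Wk I n) : e I n t (d I n x) = -d I n (e I n t x) := WkD.e_D t x

/-! ### Degrees -/

theorem mem_gr {m : ℤ} {x : Wk I n} : x ∈ gr I n m ↔ Nm I n x = ((m : ℤ) : ℂ) • x := WkD.mem_Gr

theorem Nm_mul (x z : Wk I n) : Nm I n (x * z) = Nm I n x * z + x * Nm I n z :=
  WkD.isED_N.mul x z

theorem Nm_gn (a : Gn I n) : Nm I n (gn I n a) = ((dg I n a : ℤ) : ℂ) • gn I n a := WkD.N_o a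

theorem Nm_inP {f : Pl I} {k : ℕ} (hf : f.IsHomogeneous k) :
    Nm I n (inP I n f) = ((2 * k : ℕ) : ℂ) • inP I n f := WkD.N_pl hf

theorem ep_hom (k : ℕ) : (ep I k).IsHomogeneous k := WkD.ep_hom k

theorem Nm_d (x : Wk I n) : Nm I n (d I n x) = d I n (Nm I n x) + d I n x := WkD.N_D x

theorem d_gr {m : ℤ} {x : Wk I n} (hx : x ∈ gr I n m) : d I n x ∈ gr I n (m + 1) := WkD.D_Gr hx

theorem mul_gr {m p : ℤ} {x z : Wk I n} (hx : x ∈ gr I n m) (hz : z ∈ gr I n p) :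
    x * z ∈ gr I n (m + p) := WkD.mul_Gr hx hz

theorem ct_gr (a : Gn I n) {m : ℤ} {x : Wk I n} (hx : x ∈ gr I n m) :
    ct I n a x ∈ gr I n (m - dg I n a) := WkD.do_Gr a hx

theorem e_gr (t : Fin n) {m : ℤ} {x : Wk I n} (hx : x ∈ gr I n m) :
    e I n t x ∈ gr I n (m - (4 * (t : ℤ) + 3)) := ct_gr (Sum.inr t) hx

theorem one_gr : (1 : Wk I n) ∈ gr I n 0 := WkD.one_Gr

theorem gn_gr (a : Gn I n) : gn I n a ∈ gr I n (dg I n a) := WkD.o_Gr a

theorem th_gr (i j : I) : th I n i j ∈ gr I n 1 := gn_gr (Sum.inl (i, j))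

theorem xi_gr (t : Fin n) : xi I n t ∈ gr I n (4 * (t : ℤ) + 3) := gn_gr (Sum.inr t)

theorem Fm_gr (i j : I) : Fm I n i j ∈ gr I n 2 := WkD.e_Gr _

theorem inP_gr {f : Pl I} {k : ℕ} (hf : f.IsHomogeneous k) : inP I n f ∈ gr I n (2 * k) :=
  WkD.pl_Gr hf

theorem y_gr (t : Fin n) : y I n t ∈ gr I n (4 * (t : ℤ) + 4) := WkD.yy_Gr t

theorem gr_indep : iSupIndep (gr I n) := WkD.Gr_indep

theorem iSup_gr : ⨆ m, gr I n m = ⊤ := WkD.iSup_Gr

theorem sgA_gr (m : ℤ) {x : Wk I n} (hx : x ∈ gr I n m) : sgA I n x = (m.negOnePow : ℤ) • x :=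
  WkD.sg_Gr m hx

theorem gr_internal : DirectSum.IsInternal (gr I n) :=
  (DirectSum.isInternal_submodule_iff_iSupIndep_and_iSup_eq_top _).2 ⟨gr_indep, iSup_gr⟩

/-! ### The augmentation -/

theorem eps_inL (l : Lm I n) : eps I n (inL I n l) = ExteriorAlgebra.algebraMapInv l := by
  change (Algebra.TensorProduct.lift _ _ _ :
    Wk I n →ₐ[ℂ] ℂ) (l ⊗ₜ[ℂ] 1) = _
  rw [Algebra.TensorProduct.lift_tmul, map_one, mul_one]

theorem eps_inP (f : Pl I) : eps I n (inP I n f) = MvPolynomial.aeval (fun _ => (0 : ℂ)) f := by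
  change (Algebra.TensorProduct.lift _ _ _ :
    Wk I n →ₐ[ℂ] ℂ) (1 ⊗ₜ[ℂ] f) = _
  rw [Algebra.TensorProduct.lift_tmul, map_one, one_mul]

theorem eps_gn (a : Gn I n) : eps I n (gn I n a) = 0 := by
  rw [gn, eps_inL, ExteriorAlgebra.algebraMapInv, ExteriorAlgebra.lift_ι_apply]
  rfl

theorem eps_Fm (i j : I) : eps I n (Fm I n i j) = 0 := by
  rw [Fm_apply, eps_inP, MvPolynomial.aeval_X]

theorem eps_ep {k : ℕ} (hk : k ≠ 0) : eps I n (inP I n (ep I k)) = 0 := by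
  rw [eps_inP]
  have h := (ep_hom (I := I) k).coeff_eq_zero (d := 0) (by rw [map_zero]; exact hk.symm)
  have h2 : ∀ f : Pl I, MvPolynomial.aeval (fun _ => (0 : ℂ)) f = MvPolynomial.coeff 0 f := by
    intro f
    rw [← MvPolynomial.constantCoeff_eq]
    have := MvPolynomial.aeval_zero' (R := ℂ) (S₁ := ℂ) f
    exact this
  rw [h2, h]

theorem eps_y (t : Fin n) : eps I n (y I n t) = 0 := eps_ep (by omega)

end

end Vale.Agent.P286.H847.Wk

namespace Vale.Agent.P286.H847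

/-- The Weil algebra as a graded differential space with a sign operator. -/
noncomputable abbrev WK (I : Type) [Fintype I] [DecidableEq I] (n : ℕ) : SGD where
  V := Wk I n
  d := Wk.d I n
  dd := Wk.d_d
  gr := Wk.gr I n
  dgr _ _ hx := Wk.d_gr hx
  sg := Wk.sg I n
  sg_sg := Wk.sgA_sgA
  sg_d := Wk.d_sg
  sg_gr m _ hx := Wk.sgA_gr m hx

end Vale.Agent.P286.H847
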