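import Mathlib

/-!
# The Casimir homotopy, as an identity in a ring

`th a`, `io a` satisfy the canonical anticommutation relations, `rho a` and `rh a` commute with
them, `rho` is a representation of a unimodular Lie algebra with structure constants `c`, and `rh` is
the representation of the dual basis for an invariant form.
-/

namespace Vale.Agent.P286.H166

open Finset

noncomputable section

variable {R : Type*} [Ring R] [Algebra ℂ R] {ι : Type*} [Fintype ι] [DecidableEq ι]

/-- The relations of the operators on `Λ(𝔤*) ⊗ M`. -/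
structure CasRel (c : ι → ι → ι → ℂ) (th io rho rh : ι → R) : Prop where
  th_th : ∀ a b, th a * th b = -(th b * th a)
  io_io : ∀ a b, io a * io b = -(io b * io a)
  io_th : ∀ a b, io a * th b + th b * io a = if a = b then 1 else 0
  rho_th : ∀ a b, rho a * th b = th b * rho a
  rho_io : ∀ a b, rho a * io b = io b * rho a
  rh_th : ∀ a b, rh a * th b = th b * rh a
  rh_io : ∀ a b, rh a * io b = io b * rh a
  rho_rho : ∀ a b, rho a * rho b - rho b * rho a = ∑ k, c a b k • rho k
  rho_rh : ∀ b a, rho b * rh a - rh a * rho b = -∑ k, c b k a • rh k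
  anti : ∀ a b k, c a b k = -c b a k
  unim : ∀ k, ∑ b, c b k b = 0

/-- The Chevalley–Eilenberg differential. -/
def ceD (c : ι → ι → ι → ℂ) (th io rho : ι → R) : R :=
  ∑ a, th a * rho a - (1 / 2 : ℂ) • ∑ a, ∑ b, ∑ k, c a b k • (th a * th b * io k)

/-- The homotopy. -/
def casH (io rh : ι → R) : R := ∑ a, io a * rh a

/-- The Casimir operator. -/
def cas (rho rh : ι → R) : R := ∑ a, rho a * rh a

variable {c : ι → ι → ι → ℂ} {th io rho rh : ι → R}

theorem CasRel.rh_rho_sum (h : CasRel c th io rho rh) :
    ∑ a, rh a * rho a = ∑ a, rho a * rh a := by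
  have h1 : ∑ a, (rho a * rh a - rh a * rho a) = 0 := by
    simp only [h.rho_rh]
    rw [sum_neg_distrib, neg_eq_zero, sum_comm]
    refine sum_eq_zero fun k _ => ?_
    rw [← sum_smul, h.unim, zero_smul]
  rw [sum_sub_distrib, sub_eq_zero] at h1
  exact h1.symm

theorem CasRel.part1 (h : CasRel c th io rho rh) :
    (∑ a, th a * rho a) * (∑ b, io b * rh b) + (∑ b, io b * rh b) * (∑ a, th a * rho a) =
      ∑ a, rho a * rh a - ∑ a, ∑ b, ∑ k, c a k b • (th a * io b * rh k) := by
  have key : ∀ a b, th a * rho a * (io b * rh b) + io b * rh b * (th a * rho a) =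
      (if b = a then rh b * rho a else 0) - ∑ k, c a k b • (th a * io b * rh k) := by
    intro a b
    have e1 : th a * rho a * (io b * rh b) = th a * io b * (rho a * rh b) := by
      rw [mul_assoc, ← mul_assoc (rho a), h.rho_io, mul_assoc (io b), ← mul_assoc]
    have e2 : io b * rh b * (th a * rho a) = io b * th a * (rh b * rho a) := by
      rw [mul_assoc, ← mul_assoc (rh b), h.rh_th, mul_assoc (th a), ← mul_assoc]
    have e3 : io b * th a = (if b = a then 1 else 0) - th a * io b := by
      rw [← h.io_th b a]; abel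
    have e4 : rho a * rh b = rh b * rho a - ∑ k, c a k b • rh k := by
      have := h.rho_rh a b
      rw [sub_eq_iff_eq_add] at this
      rw [this]; abel
    rw [e1, e2, e3, e4, mul_sub, sub_mul, mul_sum]
    simp only [mul_smul_comm, ite_mul, one_mul, zero_mul]
    abel
  have h2 : (∑ a, th a * rho a) * (∑ b, io b * rh b) + (∑ b, io b * rh b) * (∑ a, th a * rho a) =
      ∑ a, ∑ b, (th a * rho a * (io b * rh b) + io b * rh b * (th a * rho a)) := by
    rw [sum_mul_sum, sum_mul_sum, sum_comm (γ := ι), ← sum_add_distrib]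
    conv_lhs => arg 2; intro a
    rw [sum_comm]
    simp only [sum_add_distrib]
  rw [h2]
  simp only [key, sum_sub_distrib, sum_ite_eq', mem_univ, if_true]
  rw [h.rh_rho_sum]

theorem CasRel.part2 (h : CasRel c th io rho rh) (a b k l : ι) :
    th a * th b * io k * (io l * rh l) + io l * rh l * (th a * th b * io k) =
      (if l = a then th b * io k * rh l else 0) - (if l = b then th a * io k * rh l else 0) := by
  have e1 : io l * rh l * (th a * th b * io k) = io l * th a * th b * io k * rh l := by
    have : rh l * (th a * th b * io k) = th a * th b * io k * rh l := by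
      rw [← mul_assoc, ← mul_assoc, h.rh_th, mul_assoc (th a), h.rh_th, ← mul_assoc,
        mul_assoc _ (rh l), h.rh_io, ← mul_assoc]
    rw [mul_assoc, this]
    simp only [mul_assoc]
  have e2 : io l * th a = (if l = a then 1 else 0) - th a * io l := by
    rw [← h.io_th l a]; abel
  have e3 : io l * th b = (if l = b then 1 else 0) - th b * io l := by
    rw [← h.io_th l b]; abel
  have e4 : io l * th a * th b = (if l = a then th b else 0) - (if l = b then th a else 0) +
      th a * th b * io l := by
    rw [e2, sub_mul, mul_assoc (th a), e3, mul_sub, ite_mul, one_mul, zero_mul, mul_ite, mul_one,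
      mul_zero, ← mul_assoc]
    abel
  have e5 : th a * th b * io k * (io l * rh l) = -(th a * th b * io l * io k * rh l) := by
    rw [← mul_assoc, mul_assoc _ (io k), h.io_io k l, mul_neg, neg_mul, ← mul_assoc]
  rw [e1, e4, e5]
  simp only [add_mul, sub_mul, ite_mul, zero_mul]
  abel

theorem CasRel.part3 (h : CasRel c th io rho rh) :
    (∑ a, ∑ b, ∑ k, c a b k • (th a * th b * io k)) * (∑ l, io l * rh l) +
      (∑ l, io l * rh l) * (∑ a, ∑ b, ∑ k, c a b k • (th a * th b * io k)) =
      (2 : ℂ) • ∑ a, ∑ b, ∑ k, c a b k • (th b * io k * rh a) := by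
  have e1 : (∑ a, ∑ b, ∑ k, c a b k • (th a * th b * io k)) * (∑ l, io l * rh l) +
      (∑ l, io l * rh l) * (∑ a, ∑ b, ∑ k, c a b k • (th a * th b * io k)) =
      ∑ a, ∑ b, ∑ k, ∑ l, c a b k • (th a * th b * io k * (io l * rh l) +
        io l * rh l * (th a * th b * io k)) := by
    rw [sum_mul, mul_sum, ← sum_add_distrib]
    refine sum_congr rfl fun a _ => ?_
    rw [sum_mul, mul_sum, ← sum_add_distrib]
    refine sum_congr rfl fun b _ => ?_
    rw [sum_mul, mul_sum, ← sum_add_distrib]
    refine sum_congr rfl fun k _ => ?_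
    rw [mul_sum, sum_mul, ← sum_add_distrib]
    refine sum_congr rfl fun l _ => ?_
    rw [smul_add, smul_mul_assoc, mul_smul_comm]
  rw [e1]
  simp only [h.part2, smul_sub, sum_sub_distrib, smul_ite, smul_zero, sum_ite_eq', mem_univ, if_true]
  have e2 : ∑ a, ∑ b, ∑ k, c a b k • (th a * io k * rh b) =
      -∑ a, ∑ b, ∑ k, c a b k • (th b * io k * rh a) := by
    rw [sum_comm, ← sum_neg_distrib]
    refine sum_congr rfl fun a _ => ?_
    rw [← sum_neg_distrib]
    refine sum_congr rfl fun b _ => ?_
    rw [← sum_neg_distrib]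
    refine sum_congr rfl fun k _ => ?_
    rw [h.anti b a k, neg_smul]
  rw [e2, sub_neg_eq_add, two_smul]

/-- **The Casimir homotopy.** -/
theorem CasRel.homotopy (h : CasRel c th io rho rh) :
    ceD c th io rho * casH io rh + casH io rh * ceD c th io rho = cas rho rh := by
  rw [ceD, casH, sub_mul, mul_sub, sub_add_sub_comm, h.part1, smul_mul_assoc, mul_smul_comm,
    ← smul_add, h.part3, smul_smul]
  norm_num
  rw [cas, sub_sub, sub_eq_self]
  have e : ∑ a, ∑ b, ∑ k, c a k b • (th a * io b * rh k) =
      ∑ a, ∑ b, ∑ k, c b a k • (th b * io k * rh a) := by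
    calc ∑ a, ∑ b, ∑ k, c a k b • (th a * io b * rh k)
        = ∑ a, ∑ k, ∑ b, c a k b • (th a * io b * rh k) :=
          sum_congr rfl fun a _ => sum_comm
      _ = ∑ k, ∑ a, ∑ b, c a k b • (th a * io b * rh k) := sum_comm
  rw [e, ← sum_add_distrib]
  refine sum_eq_zero fun a _ => ?_
  rw [← sum_add_distrib]
  refine sum_eq_zero fun b _ => ?_
  rw [← sum_add_distrib]
  refine sum_eq_zero fun k _ => ?_
  rw [h.anti b a k, neg_smul, neg_add_cancel]

/-- The homotopy with an additional differential, which anticommutes with the homotopy. -/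
theorem CasRel.homotopy' (h : CasRel c th io rho rh) {del : R}
    (h1 : ∀ a, del * io a = -(io a * del)) (h2 : ∀ a, del * rh a = rh a * del) :
    (ceD c th io rho + del) * casH io rh + casH io rh * (ceD c th io rho + del) = cas rho rh := by
  have e : del * casH io rh + casH io rh * del = 0 := by
    rw [casH, mul_sum, sum_mul, ← sum_add_distrib]
    refine sum_eq_zero fun a _ => ?_
    rw [← mul_assoc, h1, neg_mul, mul_assoc, h2, ← mul_assoc, neg_add_cancel]
  rw [add_mul, mul_add, add_add_add_comm, h.homotopy, e, add_zero]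

end

end Vale.Agent.P286.H166
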