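import Mathlib

/-!
# Operators whose nilpotent part is trivial

`Ok C x`: there is a polynomial `q` with `q(0) ≠ 0` and `C (q(C) x) = 0`.  If `C = d h + h d` then the
kernel of `C` is a quasi-isomorphic subcomplex.
-/

namespace Vale.Agent.P286.H166

open Polynomial

noncomputable section

variable {E F : Type*} [AddCommGroup E] [Module ℂ E] [AddCommGroup F] [Module ℂ F]

/-- The vector `x` is the sum of a vector of the kernel of `C` and of a vector of a finite
dimensional `C`-stable subspace on which `C` is invertible. -/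
def Ok (C : Module.End ℂ E) (x : E) : Prop :=
  ∃ q r : ℂ[X], 1 = q + X * r ∧ C (aeval C q x) = 0

theorem Ok.of_eval {C : Module.End ℂ E} {x : E} {q : ℂ[X]} (h0 : q.eval 0 ≠ 0)
    (h : C (aeval C q x) = 0) : Ok C x := by
  have h1 : X ∣ (1 - Polynomial.C (q.eval 0)⁻¹ * q) := by
    rw [X_dvd_iff, coeff_zero_eq_eval_zero]
    simp [h0]
  obtain ⟨r, hr⟩ := h1
  refine ⟨Polynomial.C (q.eval 0)⁻¹ * q, r, ?_, ?_⟩
  · rw [← hr]; ring
  · rw [map_mul, Module.End.mul_apply, aeval_C, Module.algebraMap_end_apply, map_smul, h, smul_zero]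

theorem Ok.of_ker {C : Module.End ℂ E} {x : E} (h : C x = 0) : Ok C x :=
  ⟨1, 0, by ring, by rw [map_one, Module.End.one_apply, h]⟩

theorem aeval_comm_apply (C : Module.End ℂ E) (q : ℂ[X]) (x : E) :
    C (aeval C q x) = aeval C q (C x) := by
  have h : C * aeval C q = aeval C q * C := by
    have := congrArg (aeval C) (mul_comm X q)
    rwa [map_mul, map_mul, aeval_X] at this
  exact congrArg (fun T : Module.End ℂ E => T x) h

theorem aeval_map_apply {C : Module.End ℂ E} {C' : Module.End ℂ F} {u : E →ₗ[ℂ] F}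
    (hu : ∀ x, u (C x) = C' (u x)) (q : ℂ[X]) (x : E) : u (aeval C q x) = aeval C' q (u x) := by
  induction q using Polynomial.induction_on' with
  | add p q hp hq => rw [map_add, map_add, LinearMap.add_apply, LinearMap.add_apply, map_add, hp, hq]
  | monomial n a =>
    rw [aeval_monomial, aeval_monomial, Module.End.mul_apply, Module.End.mul_apply,
      Module.algebraMap_end_apply, Module.algebraMap_end_apply, map_smul]
    congr 1
    induction n with
    | zero => simp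
    | succ n ih => rw [pow_succ', pow_succ', Module.End.mul_apply, Module.End.mul_apply, hu, ih]

theorem Ok.add {C : Module.End ℂ E} {x y : E} (hx : Ok C x) (hy : Ok C y) : Ok C (x + y) := by
  obtain ⟨q, r, h, hx⟩ := hx
  obtain ⟨q', r', h', hy⟩ := hy
  refine ⟨q * q', r + q * r', ?_, ?_⟩
  · calc (1 : ℂ[X]) = q + X * r := h
      _ = q * (q' + X * r') + X * r := by rw [← h', mul_one]
      _ = q * q' + X * (r + q * r') := by ring
  · have e1 : C (aeval C (q * q') x) = 0 := by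
      rw [mul_comm q q', map_mul, Module.End.mul_apply, aeval_comm_apply, hx, map_zero]
    have e2 : C (aeval C (q * q') y) = 0 := by
      rw [map_mul, Module.End.mul_apply, aeval_comm_apply, hy, map_zero]
    rw [map_add, map_add, e1, e2, add_zero]

theorem Ok.smul {C : Module.End ℂ E} {x : E} (c : ℂ) (hx : Ok C x) : Ok C (c • x) := by
  obtain ⟨q, r, h, hx⟩ := hx
  exact ⟨q, r, h, by rw [map_smul, map_smul, hx, smul_zero]⟩

theorem Ok.map {C : Module.End ℂ E} {C' : Module.End ℂ F} {u : E →ₗ[ℂ] F}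
    (hu : ∀ x, u (C x) = C' (u x)) {x : E} (hx : Ok C x) : Ok C' (u x) := by
  obtain ⟨q, r, h, hx⟩ := hx
  exact ⟨q, r, h, by rw [← aeval_map_apply hu, ← hu, hx, map_zero]⟩

/-- The vectors `x` with `Ok C x`. -/
def okSub (C : Module.End ℂ E) : Submodule ℂ E where
  carrier := {x | Ok C x}
  add_mem' := Ok.add
  zero_mem' := Ok.of_ker (map_zero C)
  smul_mem' c _ h := h.smul c

theorem mem_okSub {C : Module.End ℂ E} {x : E} : x ∈ okSub C ↔ Ok C x := Iff.rfl

/-- The kernel of a quotient. -/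
theorem Ok.ker_map {C : Module.End ℂ E} {C' : Module.End ℂ F} {u : E →ₗ[ℂ] F}
    (hu : ∀ x, u (C x) = C' (u x)) {x : E} (hx : Ok C x) (h : C' (u x) = 0) :
    ∃ x', C x' = 0 ∧ u x' = u x := by
  obtain ⟨q, r, h1, hx⟩ := hx
  refine ⟨aeval C q x, hx, ?_⟩
  have h2 : u x = aeval C' (q + X * r) (u x) := by rw [← h1, map_one, Module.End.one_apply]
  rw [aeval_map_apply hu]
  conv_rhs => rw [h2]
  rw [map_add, LinearMap.add_apply, map_mul, aeval_X, Module.End.mul_apply, aeval_comm_apply, h,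
    map_zero, add_zero]

/-- The splitting. -/
theorem Ok.split {C : Module.End ℂ E} {x : E} (hx : Ok C x) :
    ∃ q r : ℂ[X], x = aeval C q x + C (aeval C r x) ∧ C (aeval C q x) = 0 := by
  obtain ⟨q, r, h, hx⟩ := hx
  refine ⟨q, r, ?_, hx⟩
  have h2 : x = aeval C (q + X * r) x := by rw [← h, map_one, Module.End.one_apply]
  conv_lhs => rw [h2]
  rw [map_add, map_mul, aeval_X]
  rfl

/-- Finite dimensional spaces on which the kernel of `C ^ 2` is the kernel of `C`. -/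
theorem Ok.of_fin {C : Module.End ℂ E} {V : Submodule ℂ E} [FiniteDimensional ℂ V]
    (hV : ∀ x ∈ V, C x ∈ V) (hk : ∀ x ∈ V, C (C x) = 0 → C x = 0) {x : E} (hx : x ∈ V) : Ok C x := by
  let C' : Module.End ℂ V := C.restrict hV
  have hu : ∀ y : V, V.subtype (C' y) = C (V.subtype y) := fun y => rfl
  have hk' : ∀ n : ℕ, ∀ y : V, (C' ^ n) y = 0 → C' y = 0 := by
    intro n
    induction n with
    | zero => intro y hy; rw [pow_zero, Module.End.one_apply] at hy; rw [hy, map_zero]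
    | succ n ih =>
      intro y hy
      rw [pow_succ, Module.End.mul_apply] at hy
      have := ih _ hy
      apply Subtype.ext
      exact hk y y.2 (congrArg Subtype.val this)
  obtain ⟨n, p, hp, hp0⟩ : ∃ (n : ℕ) (p : ℂ[X]), minpoly ℂ C' = X ^ n * p ∧ p.eval 0 ≠ 0 := by
    have h0 : minpoly ℂ C' ≠ 0 := minpoly.ne_zero (Algebra.IsIntegral.isIntegral C')
    obtain ⟨p, hp, hp'⟩ := exists_eq_pow_rootMultiplicity_mul_and_not_dvd (minpoly ℂ C') h0 0
    refine ⟨_, p, by rw [hp, map_zero, sub_zero], fun h => hp' ?_⟩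
    rw [map_zero, sub_zero, X_dvd_iff, coeff_zero_eq_eval_zero, h]
  have h1 : ∀ y : V, C' (aeval C' p y) = 0 := by
    intro y
    apply hk' n
    have := minpoly.aeval ℂ C'
    rw [hp, map_mul, map_pow, aeval_X] at this
    exact congrArg (fun T : Module.End ℂ V => T y) this
  exact Ok.map (u := V.subtype) hu (Ok.of_eval hp0 (h1 ⟨x, hx⟩))

section Complex

variable {X₀ X₁ X₂ X₃ : Type*} [AddCommGroup X₀] [Module ℂ X₀] [AddCommGroup X₁] [Module ℂ X₁]
  [AddCommGroup X₂] [Module ℂ X₂] [AddCommGroup X₃] [Module ℂ X₃]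
  (d₀ : X₀ →ₗ[ℂ] X₁) (d₁ : X₁ →ₗ[ℂ] X₂) (d₂ : X₂ →ₗ[ℂ] X₃)
  (h₁ : X₁ →ₗ[ℂ] X₀) (h₂ : X₂ →ₗ[ℂ] X₁) (h₃ : X₃ →ₗ[ℂ] X₂)
  (C₁ : Module.End ℂ X₁) (C₂ : Module.End ℂ X₂)

/-- Cocycles are cohomologous to cocycles in the kernel of the Casimir operator. -/
theorem Ok.cocycle (dd : ∀ x, d₂ (d₁ x) = 0) (hC : ∀ x, C₂ x = d₁ (h₂ x) + h₃ (d₂ x)) {x : X₂}
    (hx : Ok C₂ x) (hd : d₂ x = 0) : ∃ x' y, C₂ x' = 0 ∧ d₂ x' = 0 ∧ x = x' + d₁ y := by
  obtain ⟨q, r, e, hq⟩ := hx.split
  have hd' : ∀ p : ℂ[X], d₂ (aeval C₂ p x) = 0 := by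
    intro p
    have hu : ∀ z, d₂ (C₂ z) = (d₂ ∘ₗ h₃) (d₂ z) := by
      intro z; rw [hC, map_add, dd, zero_add]; rfl
    rw [aeval_map_apply (C' := d₂ ∘ₗ h₃) hu, hd, map_zero]
  refine ⟨aeval C₂ q x, h₂ (aeval C₂ r x), hq, hd' q, ?_⟩
  rw [hC (aeval C₂ r x), hd', map_zero, add_zero] at e
  exact e

/-- Coboundaries in the kernel of the Casimir operator. -/
theorem Ok.coboundary (dd : ∀ x, d₂ (d₁ x) = 0) (dd' : ∀ x, d₁ (d₀ x) = 0)
    (hC : ∀ x, C₂ x = d₁ (h₂ x) + h₃ (d₂ x)) (hC' : ∀ x, C₁ x = d₀ (h₁ x) + h₂ (d₁ x)) {y : X₁}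
    (hy : Ok C₁ y) (hd : C₂ (d₁ y) = 0) : ∃ y', C₁ y' = 0 ∧ d₁ y' = d₁ y := by
  have hu : ∀ z, d₁ (C₁ z) = C₂ (d₁ z) := by
    intro z; rw [hC, hC', map_add, dd', zero_add, dd, map_zero, add_zero]
  exact hy.ker_map hu hd

end Complex

end

end Vale.Agent.P286.H166
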