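import Vale.Agent.P286.H166.Cas2

/-!
# The Casimir operator on polynomials is positive
-/

namespace Vale.Agent.P286.H166

open MvPolynomial ComplexConjugate

noncomputable section

variable {σ : Type*}

/-- The product of the factorials. -/
def fct (α : σ →₀ ℕ) : ℂ := α.prod fun _ n => (n.factorial : ℂ)

theorem fct_zero : fct (0 : σ →₀ ℕ) = 1 := Finsupp.prod_zero_index

theorem fct_add (α : σ →₀ ℕ) (i : σ) : fct (α + Finsupp.single i 1) = (α i + 1) * fct α := by
  classical
  have h : ∀ β : σ →₀ ℕ, β.support ⊆ insert i α.support →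
      fct β = ∏ j ∈ insert i α.support, ((β j).factorial : ℂ) := by
    intro β hβ
    exact Finsupp.prod_of_support_subset _ hβ _ fun _ _ => by simp
  rw [h α (Finset.subset_insert _ _), h (α + Finsupp.single i 1)]
  · rw [← Finset.mul_prod_erase _ _ (Finset.mem_insert_self i α.support),
      ← Finset.mul_prod_erase _ (fun j => ((α j).factorial : ℂ))
        (Finset.mem_insert_self i α.support), ← mul_assoc]
    congr 1
    · simp [Nat.factorial_succ]
    · refine Finset.prod_congr rfl fun j hj => ?_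
      have : j ≠ i := Finset.ne_of_mem_erase hj
      simp [this.symm]
  · intro j hj
    by_cases hji : j = i
    · exact Finset.mem_insert.2 (Or.inl hji)
    · refine Finset.mem_insert.2 (Or.inr ?_)
      rw [Finsupp.mem_support_iff] at hj ⊢
      simpa [Finsupp.single_apply, Ne.symm hji] using hj

theorem fct_pos (α : σ →₀ ℕ) : ∃ n : ℕ, 0 < n ∧ fct α = n :=
  ⟨α.prod fun _ n => n.factorial, Finset.prod_pos fun _ _ => Nat.factorial_pos _, by
    rw [fct, Finsupp.prod, Finsupp.prod, Nat.cast_prod]⟩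

/-- The Hermitian form for which the monomials are orthogonal with norms `α!`. -/
def bfm (p q : MvPolynomial σ ℂ) : ℂ :=
  ∑ α ∈ p.support, fct α * conj (coeff α p) * coeff α q

theorem bfm_eq {p q : MvPolynomial σ ℂ} {S : Finset (σ →₀ ℕ)} (h : p.support ⊆ S) :
    bfm p q = ∑ α ∈ S, fct α * conj (coeff α p) * coeff α q :=
  Finset.sum_subset h fun α _ hα => by
    rw [notMem_support_iff.1 hα, map_zero, mul_zero, zero_mul]

theorem bfm_eq' {p q : MvPolynomial σ ℂ} {S : Finset (σ →₀ ℕ)} (h : q.support ⊆ S) :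
    bfm p q = ∑ α ∈ S, fct α * conj (coeff α p) * coeff α q := by
  classical
  rw [bfm_eq (Finset.subset_union_left (s₂ := S))]
  refine (Finset.sum_subset Finset.subset_union_right fun α _ hα => ?_).symm
  rw [notMem_support_iff.1 fun hh => hα (h hh), mul_zero]

theorem bfm_add_left (p p' q : MvPolynomial σ ℂ) : bfm (p + p') q = bfm p q + bfm p' q := by
  classical
  rw [bfm_eq (S := p.support ∪ p'.support) support_add,
    bfm_eq (p := p) (S := p.support ∪ p'.support) Finset.subset_union_left,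
    bfm_eq (p := p') (S := p.support ∪ p'.support) Finset.subset_union_right,
    ← Finset.sum_add_distrib]
  refine Finset.sum_congr rfl fun α _ => ?_
  rw [coeff_add, map_add]; ring

theorem bfm_add_right (p q q' : MvPolynomial σ ℂ) : bfm p (q + q') = bfm p q + bfm p q' := by
  rw [bfm, bfm, bfm, ← Finset.sum_add_distrib]
  refine Finset.sum_congr rfl fun α _ => ?_
  rw [coeff_add]; ring

theorem bfm_zero_left (q : MvPolynomial σ ℂ) : bfm 0 q = 0 := by simp [bfm]

theorem bfm_zero_right (p : MvPolynomial σ ℂ) : bfm p 0 = 0 := by simp [bfm]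

theorem bfm_smul_right (c : ℂ) (p q : MvPolynomial σ ℂ) : bfm p (c • q) = c * bfm p q := by
  rw [bfm, bfm, Finset.mul_sum]
  refine Finset.sum_congr rfl fun α _ => ?_
  rw [coeff_smul, smul_eq_mul]; ring

theorem bfm_conj (p q : MvPolynomial σ ℂ) : conj (bfm p q) = bfm q p := by
  rw [bfm_eq' (p := q) (q := p) (Finset.Subset.refl _), bfm, map_sum]
  refine Finset.sum_congr rfl fun α _ => ?_
  obtain ⟨n, _, hn⟩ := fct_pos α
  rw [map_mul, map_mul, hn, Complex.conj_conj, Complex.conj_natCast]; ring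

theorem bfm_smul_left (c : ℂ) (p q : MvPolynomial σ ℂ) : bfm (c • p) q = conj c * bfm p q := by
  rw [← bfm_conj, bfm_smul_right, map_mul, bfm_conj]

theorem bfm_monomial (α : σ →₀ ℕ) (a : ℂ) (q : MvPolynomial σ ℂ) :
    bfm (monomial α a) q = fct α * conj a * coeff α q := by
  classical
  rw [bfm_eq (S := {α}) support_monomial_subset, Finset.sum_singleton, coeff_monomial, if_pos rfl]

theorem bfm_X_mul (i : σ) (p q : MvPolynomial σ ℂ) : bfm (X i * p) q = bfm p (pderiv i q) := by
  induction p using MvPolynomial.induction_on' with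
  | add p p' hp hp' => rw [mul_add, bfm_add_left, bfm_add_left, hp, hp']
  | monomial α a =>
    rw [mul_comm, X, monomial_mul, mul_one, bfm_monomial, bfm_monomial, fct_add, coeff_pderiv]
    ring

theorem bfm_pderiv (i : σ) (p q : MvPolynomial σ ℂ) : bfm (pderiv i p) q = bfm p (X i * q) := by
  rw [← bfm_conj, ← bfm_X_mul, bfm_conj]

theorem bfm_self (p : MvPolynomial σ ℂ) :
    ∃ r : ℝ, bfm p p = r ∧ 0 ≤ r ∧ (r = 0 → p = 0) := by
  choose n hn hn' using fct_pos (σ := σ)
  refine ⟨∑ α ∈ p.support, n α * Complex.normSq (coeff α p), ?_, ?_, ?_⟩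
  · rw [bfm, Complex.ofReal_sum]
    refine Finset.sum_congr rfl fun α _ => ?_
    rw [hn', mul_assoc, Complex.ofReal_mul, Complex.normSq_eq_conj_mul_self, Complex.ofReal_natCast]
  · exact Finset.sum_nonneg fun α _ => mul_nonneg (Nat.cast_nonneg _) (Complex.normSq_nonneg _)
  · intro h
    rw [Finset.sum_eq_zero_iff_of_nonneg
      fun α _ => mul_nonneg (Nat.cast_nonneg _) (Complex.normSq_nonneg _)] at h
    ext α
    rw [coeff_zero]
    by_cases hα : α ∈ p.support
    · have := h α hα
      rcases mul_eq_zero.1 this with h1 | h1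
      · exact absurd h1 (Nat.cast_ne_zero.2 (hn α).ne')
      · exact Complex.normSq_eq_zero.1 h1
    · exact notMem_support_iff.1 hα

variable [Fintype σ]

/-- The linear vector field defined by a matrix. -/
def lvf (A : Matrix σ σ ℂ) : Derivation ℂ (MvPolynomial σ ℂ) (MvPolynomial σ ℂ) :=
  mkDerivation ℂ fun j => ∑ i, A i j • X i

theorem lvf_X (A : Matrix σ σ ℂ) (j : σ) : lvf A (X j) = ∑ i, A i j • X i := mkDerivation_X _ _ _

theorem lvf_apply (A : Matrix σ σ ℂ) (p : MvPolynomial σ ℂ) :
    lvf A p = ∑ i, ∑ j, A i j • (X i * pderiv j p) := by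
  classical
  have hs : ∀ {κ : Type _} (s : Finset κ)
      (f : κ → Derivation ℂ (MvPolynomial σ ℂ) (MvPolynomial σ ℂ)) (q : MvPolynomial σ ℂ),
      (∑ k ∈ s, f k) q = ∑ k ∈ s, f k q := by
    intro κ s f q
    have := congrFun (map_sum (Derivation.coeFnAddMonoidHom (R := ℂ) (A := MvPolynomial σ ℂ)
      (M := MvPolynomial σ ℂ)) f s) q
    rwa [Finset.sum_apply] at this
  have h : lvf A = ∑ i, ∑ j, A i j • ((X i : MvPolynomial σ ℂ) • pderiv j) := by
    refine derivation_ext fun k => ?_
    rw [lvf_X, hs]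
    refine Finset.sum_congr rfl fun i _ => ?_
    rw [hs, Finset.sum_eq_single k]
    · rw [Derivation.smul_apply, Derivation.smul_apply, pderiv_X_self, smul_eq_mul, mul_one]
    · intro j _ hj
      rw [Derivation.smul_apply, Derivation.smul_apply, pderiv_X_of_ne hj.symm, smul_zero,
        smul_zero]
    · intro hk; exact absurd (Finset.mem_univ k) hk
  rw [h, hs]
  refine Finset.sum_congr rfl fun i _ => ?_
  rw [hs]
  rfl

omit [Fintype σ] in
theorem bfm_sum_left {κ : Type*} (s : Finset κ) (f : κ → MvPolynomial σ ℂ) (q : MvPolynomial σ ℂ) :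
    bfm (∑ k ∈ s, f k) q = ∑ k ∈ s, bfm (f k) q := by
  classical
  induction s using Finset.induction_on with
  | empty => rw [Finset.sum_empty, Finset.sum_empty, bfm_zero_left]
  | insert a s ha ih => rw [Finset.sum_insert ha, Finset.sum_insert ha, bfm_add_left, ih]

omit [Fintype σ] in
theorem bfm_sum_right {κ : Type*} (s : Finset κ) (p : MvPolynomial σ ℂ)
    (f : κ → MvPolynomial σ ℂ) : bfm p (∑ k ∈ s, f k) = ∑ k ∈ s, bfm p (f k) := by
  classical
  induction s using Finset.induction_on with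
  | empty => rw [Finset.sum_empty, Finset.sum_empty, bfm_zero_right]
  | insert a s ha ih => rw [Finset.sum_insert ha, Finset.sum_insert ha, bfm_add_right, ih]

theorem bfm_lvf (A : Matrix σ σ ℂ) (p q : MvPolynomial σ ℂ) :
    bfm (lvf A p) q = bfm p (lvf A.conjTranspose q) := by
  rw [lvf_apply, lvf_apply, bfm_sum_left, bfm_sum_right]
  simp only [bfm_sum_left, bfm_sum_right]
  rw [Finset.sum_comm]
  refine Finset.sum_congr rfl fun j _ => Finset.sum_congr rfl fun i _ => ?_
  rw [bfm_smul_left, bfm_smul_right, bfm_X_mul, bfm_pderiv, Matrix.conjTranspose_apply]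
  rfl

variable {κ : Type*} [Fintype κ] (A : κ → Matrix σ σ ℂ)

/-- The Casimir operator. -/
def casP : Module.End ℂ (MvPolynomial σ ℂ) :=
  ∑ a, (lvf (A a) : MvPolynomial σ ℂ →ₗ[ℂ] MvPolynomial σ ℂ) ∘ₗ
    (lvf (A a).conjTranspose : MvPolynomial σ ℂ →ₗ[ℂ] MvPolynomial σ ℂ)

theorem casP_apply (p : MvPolynomial σ ℂ) :
    casP A p = ∑ a, lvf (A a) (lvf (A a).conjTranspose p) := by
  rw [casP, LinearMap.sum_apply]
  rfl

theorem bfm_casP (p q : MvPolynomial σ ℂ) :
    bfm (casP A p) q = ∑ a, bfm (lvf (A a).conjTranspose p) (lvf (A a).conjTranspose q) := by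
  rw [casP_apply, bfm_sum_left]
  exact Finset.sum_congr rfl fun a _ => bfm_lvf _ _ _

theorem bfm_casP_comm (p q : MvPolynomial σ ℂ) : bfm (casP A p) q = bfm p (casP A q) := by
  rw [← bfm_conj (casP A q) p, bfm_casP, bfm_casP, map_sum]
  exact Finset.sum_congr rfl fun a _ => (bfm_conj _ _).symm

/-- The kernel of the Casimir operator. -/
theorem lvf_eq_zero_of_casP {p : MvPolynomial σ ℂ} (h : casP A p = 0) (a : κ) :
    lvf (A a).conjTranspose p = 0 := by
  have h1 := bfm_casP A p p
  rw [h, bfm_zero_left] at h1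
  choose r hr hr0 hr1 using bfm_self (σ := σ)
  simp only [hr] at h1
  rw [← Complex.ofReal_sum, eq_comm, Complex.ofReal_eq_zero,
    Finset.sum_eq_zero_iff_of_nonneg fun a _ => hr0 _] at h1
  exact hr1 _ (h1 a (Finset.mem_univ a))

theorem casP_eq_zero_of_sq {p : MvPolynomial σ ℂ} (h : casP A (casP A p) = 0) : casP A p = 0 := by
  have h1 := bfm_casP_comm A (casP A p) p
  rw [h, bfm_zero_left] at h1
  obtain ⟨r, hr, _, hr1⟩ := bfm_self (casP A p)
  apply hr1
  rwa [hr, eq_comm, Complex.ofReal_eq_zero] at h1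

omit [Fintype σ] in
theorem X_mul_pderiv_mem {N : ℕ} {p : MvPolynomial σ ℂ} (hp : p ∈ restrictTotalDegree σ ℂ N)
    (i j : σ) : X i * pderiv j p ∈ restrictTotalDegree σ ℂ N := by
  classical
  rw [mem_restrictTotalDegree] at hp
  rw [p.as_sum, map_sum, Finset.mul_sum]
  refine Submodule.sum_mem _ fun s hs => ?_
  rw [pderiv_monomial, X, monomial_mul, one_mul]
  by_cases h : s j = 0
  · rw [h, Nat.cast_zero, mul_zero, monomial_zero]; exact Submodule.zero_mem _
  · rw [mem_restrictTotalDegree]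
    refine (totalDegree_monomial_le _ _).trans (le_trans (le_of_eq ?_) ((le_totalDegree hs).trans hp))
    have e : Finsupp.single j 1 + (s - Finsupp.single j 1) = s :=
      add_tsub_cancel_of_le (Finsupp.single_le_iff.2 (Nat.one_le_iff_ne_zero.2 h))
    conv_rhs => rw [← e]
    rw [Finsupp.sum_add_index' (fun _ => rfl) (fun _ _ _ => rfl),
      Finsupp.sum_add_index' (fun _ => rfl) (fun _ _ _ => rfl), Finsupp.sum_single_index rfl,
      Finsupp.sum_single_index rfl]
    rfl

theorem lvf_mem {N : ℕ} {p : MvPolynomial σ ℂ} (hp : p ∈ restrictTotalDegree σ ℂ N)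
    (B : Matrix σ σ ℂ) : lvf B p ∈ restrictTotalDegree σ ℂ N := by
  rw [lvf_apply]
  exact Submodule.sum_mem _ fun i _ => Submodule.sum_mem _ fun j _ =>
    Submodule.smul_mem _ _ (X_mul_pderiv_mem hp i j)

theorem casP_mem {N : ℕ} {p : MvPolynomial σ ℂ} (hp : p ∈ restrictTotalDegree σ ℂ N) :
    casP A p ∈ restrictTotalDegree σ ℂ N := by
  rw [casP_apply]
  exact Submodule.sum_mem _ fun a _ => lvf_mem (lvf_mem hp _) _

/-- **Property (P)** of the polynomials. -/
theorem ok_casP (p : MvPolynomial σ ℂ) : Ok (casP A) p :=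
  Ok.of_fin (V := restrictTotalDegree σ ℂ p.totalDegree) (fun _ hx => casP_mem A hx)
    (fun _ _ hx => casP_eq_zero_of_sq A hx) ((mem_restrictTotalDegree _ _ _).2 le_rfl)

end

end Vale.Agent.P286.H166
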