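import Vale.Agent.P286.H166.Cas1
import Vale.Agent.P286.H166.Cas3

/-!
# The Casimir data of a Lie algebra of matrices closed under the Hermitian transpose
-/

namespace Vale.Agent.P286.H166

open Matrix

noncomputable section

section Onb

variable {n : Type*} [Fintype n]

/-- The Hermitian space of matrices. -/
def matE : Matrix n n ℂ ≃ₗ[ℂ] EuclideanSpace ℂ (n × n) :=
  (LinearEquiv.curry ℂ ℂ n n).symm.trans (WithLp.linearEquiv 2 ℂ (n × n → ℂ)).symm

theorem matE_inner (X Y : Matrix n n ℂ) : inner ℂ (matE Y) (matE X) = trace (X * Yᴴ) := by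
  rw [PiLp.inner_apply, Fintype.sum_prod_type]
  refine Finset.sum_congr rfl fun i _ => ?_
  rw [Matrix.diag_apply, Matrix.mul_apply]
  refine Finset.sum_congr rfl fun j _ => ?_
  rfl

/-- An orthonormal basis of `g` for the form `tr (X Yᴴ)`. -/
structure Onb (g : Submodule ℂ (Matrix n n ℂ)) {k : ℕ} (e : Fin k → Matrix n n ℂ) : Prop where
  mem : ∀ a, e a ∈ g
  orth : ∀ a b, trace (e a * (e b)ᴴ) = if a = b then 1 else 0
  exp : ∀ X ∈ g, X = ∑ a, trace (X * (e a)ᴴ) • e a

theorem exists_onb (g : Submodule ℂ (Matrix n n ℂ)) :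
    ∃ (k : ℕ) (e : Fin k → Matrix n n ℂ), Onb g e := by
  let g' : Submodule ℂ (EuclideanSpace ℂ (n × n)) := g.map (matE (n := n)).toLinearMap
  let b := stdOrthonormalBasis ℂ g'
  have hb : ∀ a, ∃ X ∈ g, matE X = (b a : EuclideanSpace ℂ (n × n)) := fun a => (b a).2
  choose e he he' using hb
  refine ⟨_, e, he, ?_, ?_⟩
  · intro a c
    rw [← matE_inner, he', he', ← Submodule.coe_inner, b.inner_eq_ite]
    simp only [eq_comm]
  · intro X hX
    apply matE.injective
    have h1 := b.sum_repr ⟨matE X, X, hX, rfl⟩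
    have h2 := congrArg (Subtype.val) h1
    rw [map_sum]
    rw [AddSubmonoidClass.coe_finsetSum] at h2
    refine h2.symm.trans (Finset.sum_congr rfl fun a _ => ?_)
    rw [b.repr_apply_apply, map_smul, he', ← matE_inner, he']
    rfl

end Onb

section Lie

variable {n : Type*} [Fintype n] {g : Submodule ℂ (Matrix n n ℂ)} {k : ℕ}
  {e : Fin k → Matrix n n ℂ}

/-- The structure constants. -/
def stc (e : Fin k → Matrix n n ℂ) (a b l : Fin k) : ℂ :=
  trace ((e a * e b - e b * e a) * (e l)ᴴ)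

theorem stc_anti (a b l : Fin k) : stc e a b l = -stc e b a l := by
  rw [stc, stc, ← trace_neg, ← neg_mul, neg_sub]

variable (h : Onb g e) (hb : ∀ X ∈ g, ∀ Y ∈ g, X * Y - Y * X ∈ g) (hd : ∀ X ∈ g, Xᴴ ∈ g)

include h hb

theorem Onb.bracket (a b : Fin k) : e a * e b - e b * e a = ∑ l, stc e a b l • e l :=
  h.exp _ (hb _ (h.mem a) _ (h.mem b))

omit hb

include hd

theorem Onb.exp' {X : Matrix n n ℂ} (hX : X ∈ g) : X = ∑ a, trace (X * e a) • (e a)ᴴ := by
  have h1 := congrArg conjTranspose (h.exp _ (hd X hX))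
  rw [conjTranspose_conjTranspose] at h1
  conv_lhs => rw [h1]
  rw [conjTranspose_sum]
  refine Finset.sum_congr rfl fun a _ => ?_
  rw [conjTranspose_smul, ← conjTranspose_mul, trace_conjTranspose, star_star, trace_mul_comm]

include hb

theorem Onb.bracket' (a b : Fin k) :
    e b * (e a)ᴴ - (e a)ᴴ * e b = -∑ l, stc e b l a • (e l)ᴴ := by
  conv_lhs => rw [h.exp' hd (hb _ (h.mem b) _ (hd _ (h.mem a)))]
  rw [← Finset.sum_neg_distrib]
  refine Finset.sum_congr rfl fun l _ => ?_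
  rw [← neg_smul]
  congr 1
  rw [stc, sub_mul, sub_mul, trace_sub, trace_sub, neg_sub, mul_assoc, mul_assoc, mul_assoc,
    mul_assoc, trace_mul_comm (e l) (e b * (e a)ᴴ), trace_mul_comm (e b) ((e a)ᴴ * e l), mul_assoc,
    mul_assoc, trace_mul_comm (e b) ((e a)ᴴ * e l), mul_assoc, trace_mul_comm ((e a)ᴴ) (e b * e l),
    mul_assoc]

omit hb in
theorem Onb.unim (l : Fin k) : ∑ b, stc e b l b = 0 := by
  have h1 : ∀ b, stc e b l b = ∑ j, trace ((e b)ᴴ * (e j)ᴴ) *
      trace (e l * (e j * e b - e b * e j)) := by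
    intro b
    rw [stc]
    conv_lhs => rw [h.exp _ (hd _ (h.mem b))]
    rw [Finset.mul_sum, trace_sum]
    refine Finset.sum_congr rfl fun j _ => ?_
    rw [mul_smul_comm, trace_smul, smul_eq_mul]
    congr 1
    rw [sub_mul, mul_sub, trace_sub, trace_sub, mul_assoc, trace_mul_comm (e b), ← mul_assoc,
      mul_assoc, mul_assoc]
  simp only [h1]
  have h2 : ∑ b, ∑ j, trace ((e b)ᴴ * (e j)ᴴ) * trace (e l * (e j * e b - e b * e j)) =
      -∑ b, ∑ j, trace ((e b)ᴴ * (e j)ᴴ) * trace (e l * (e j * e b - e b * e j)) := by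
    conv_rhs => rw [Finset.sum_comm]
    rw [← Finset.sum_neg_distrib]
    refine Finset.sum_congr rfl fun b _ => ?_
    rw [← Finset.sum_neg_distrib]
    refine Finset.sum_congr rfl fun j _ => ?_
    rw [trace_mul_comm ((e j)ᴴ), ← mul_neg, ← trace_neg, ← mul_neg, neg_sub]
  have h3 : (2 : ℂ) * ∑ b, ∑ j, trace ((e b)ᴴ * (e j)ᴴ) *
      trace (e l * (e j * e b - e b * e j)) = 0 := by
    rw [two_mul]
    conv_lhs => arg 1; rw [h2]
    rw [neg_add_cancel]
  exact (mul_eq_zero.1 h3).resolve_left two_ne_zero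

variable {R : Type*} [Ring R] [Algebra ℂ R]

/-- The relations `CasRel` from a representation `ρ` of `g` which commutes with `th` and `io`. -/
theorem Onb.casRel {th io : Fin k → R} (ρ : Matrix n n ℂ →ₗ[ℂ] R)
    (hρ : ∀ X ∈ g, ∀ Y ∈ g, ρ (X * Y - Y * X) = ρ X * ρ Y - ρ Y * ρ X)
    (th_th : ∀ a b, th a * th b = -(th b * th a)) (io_io : ∀ a b, io a * io b = -(io b * io a))
    (io_th : ∀ a b, io a * th b + th b * io a = if a = b then 1 else 0)
    (r_th : ∀ X b, ρ X * th b = th b * ρ X) (r_io : ∀ X b, ρ X * io b = io b * ρ X) :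
    CasRel (stc e) th io (fun a => ρ (e a)) (fun a => ρ (e a)ᴴ) where
  th_th := th_th
  io_io := io_io
  io_th := io_th
  rho_th a b := r_th _ _
  rho_io a b := r_io _ _
  rh_th a b := r_th _ _
  rh_io a b := r_io _ _
  rho_rho a b := by
    rw [← hρ _ (h.mem a) _ (h.mem b), h.bracket hb, map_sum]
    simp only [map_smul]
  rho_rh b a := by
    rw [← hρ _ (h.mem b) _ (hd _ (h.mem a)), h.bracket' hb hd, map_neg, map_sum]
    simp only [map_smul]
  anti := stc_anti
  unim := h.unim hd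

end Lie

section Lvf

variable {σ : Type*} [Fintype σ]

theorem lvf_add (A B : Matrix σ σ ℂ) : lvf (A + B) = lvf A + lvf B := by
  refine MvPolynomial.derivation_ext fun j => ?_
  rw [Derivation.add_apply, lvf_X, lvf_X, lvf_X, ← Finset.sum_add_distrib]
  simp only [Matrix.add_apply, add_smul]

theorem lvf_smul (c : ℂ) (A : Matrix σ σ ℂ) : lvf (c • A) = c • lvf A := by
  refine MvPolynomial.derivation_ext fun j => ?_
  rw [Derivation.smul_apply, lvf_X, lvf_X, Finset.smul_sum]
  simp only [Matrix.smul_apply, smul_assoc]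

/-- `lvf` as a linear map. -/
def lvfL : Matrix σ σ ℂ →ₗ[ℂ] Derivation ℂ (MvPolynomial σ ℂ) (MvPolynomial σ ℂ) where
  toFun := lvf
  map_add' := lvf_add
  map_smul' := lvf_smul

theorem lvf_lie (A B : Matrix σ σ ℂ) : lvf (A * B - B * A) = ⁅lvf A, lvf B⁆ := by
  have key : ∀ (A B : Matrix σ σ ℂ) j,
      lvf A (lvf B (MvPolynomial.X j)) = ∑ i, (A * B) i j • (MvPolynomial.X i : MvPolynomial σ ℂ) := by
    intro A B j
    rw [lvf_X, map_sum]
    simp only [Derivation.map_smul, lvf_X, Finset.smul_sum, Matrix.mul_apply, Finset.sum_smul]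
    rw [Finset.sum_comm]
    refine Finset.sum_congr rfl fun i _ => Finset.sum_congr rfl fun l _ => ?_
    rw [smul_smul, mul_comm]
  refine MvPolynomial.derivation_ext fun j => ?_
  rw [Derivation.commutator_apply, key, key, lvf_X, ← Finset.sum_sub_distrib]
  simp only [Matrix.sub_apply, sub_smul]

theorem lvf_zero : lvf (0 : Matrix σ σ ℂ) = 0 := map_zero lvfL

end Lvf

end

end Vale.Agent.P286.H166
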