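import Vale.Agent.P286.H166.Cas4
import Vale.Agent.P286.H374.ChevDefs

/-!
# The actions on polynomial functions on matrices, and the Lie algebra of a datum
-/

namespace Vale.Agent.P286.H166

open Matrix

noncomputable section

set_option linter.unusedSectionVars false

section Act

variable {n : Type*} [Fintype n] [DecidableEq n]

/-- The matrix of `x ↦ x A`. -/
def rM (A : Matrix n n ℂ) : Matrix (n × n) (n × n) ℂ :=
  fun p q => if p.1 = q.1 then A p.2 q.2 else 0

/-- The matrix of `x ↦ A x`. -/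
def lM (A : Matrix n n ℂ) : Matrix (n × n) (n × n) ℂ :=
  fun p q => if p.2 = q.2 then A q.1 p.1 else 0

theorem rM_apply (A : Matrix n n ℂ) (p q : n × n) :
    rM A p q = if p.1 = q.1 then A p.2 q.2 else 0 := rfl

theorem lM_apply (A : Matrix n n ℂ) (p q : n × n) :
    lM A p q = if p.2 = q.2 then A q.1 p.1 else 0 := rfl

theorem rM_add (A B : Matrix n n ℂ) : rM (A + B) = rM A + rM B := by
  ext p q; simp only [rM_apply, Matrix.add_apply]; split_ifs <;> simp

theorem lM_add (A B : Matrix n n ℂ) : lM (A + B) = lM A + lM B := by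
  ext p q; simp only [lM_apply, Matrix.add_apply]; split_ifs <;> simp

theorem rM_smul (c : ℂ) (A : Matrix n n ℂ) : rM (c • A) = c • rM A := by
  ext p q; simp only [rM_apply, Matrix.smul_apply]; split_ifs <;> simp

theorem lM_smul (c : ℂ) (A : Matrix n n ℂ) : lM (c • A) = c • lM A := by
  ext p q; simp only [lM_apply, Matrix.smul_apply]; split_ifs <;> simp

theorem rM_mul (A B : Matrix n n ℂ) : rM (A * B) = rM A * rM B := by
  ext ⟨i, j⟩ ⟨k, l⟩
  rw [rM_apply, Matrix.mul_apply, Matrix.mul_apply, Fintype.sum_prod_type]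
  simp only [rM_apply, ite_mul, zero_mul, mul_ite, mul_zero]
  by_cases h : i = k
  · subst h
    simp
  · simp [h]

theorem lM_mul (A B : Matrix n n ℂ) : lM (A * B) = lM B * lM A := by
  ext ⟨i, j⟩ ⟨k, l⟩
  rw [lM_apply, Matrix.mul_apply, Matrix.mul_apply, Fintype.sum_prod_type_right]
  simp only [lM_apply, ite_mul, zero_mul, mul_ite, mul_zero]
  by_cases h : j = l
  · subst h
    simp [mul_comm]
  · simp [h]

theorem lM_rM (A B : Matrix n n ℂ) : lM A * rM B = rM B * lM A := by
  ext ⟨i, j⟩ ⟨k, l⟩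
  rw [Matrix.mul_apply, Matrix.mul_apply, Fintype.sum_prod_type, Fintype.sum_prod_type]
  simp [lM_apply, rM_apply, mul_comm]

theorem rM_conjTranspose (A : Matrix n n ℂ) : (rM A)ᴴ = rM Aᴴ := by
  ext p q
  rw [conjTranspose_apply, rM_apply, rM_apply, conjTranspose_apply]
  simp only [eq_comm]
  split_ifs <;> simp

theorem lM_conjTranspose (A : Matrix n n ℂ) : (lM A)ᴴ = lM Aᴴ := by
  ext p q
  rw [conjTranspose_apply, lM_apply, lM_apply, conjTranspose_apply]
  simp only [eq_comm]
  split_ifs <;> simp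

theorem lvf_rM_X (A : Matrix n n ℂ) (i j : n) :
    lvf (rM A) (MvPolynomial.X (i, j)) = ∑ k, A k j • (MvPolynomial.X (i, k) : MvPolynomial _ ℂ) := by
  rw [lvf_X, Fintype.sum_prod_type]
  simp [rM_apply]

theorem lvf_lM_X (A : Matrix n n ℂ) (i j : n) :
    lvf (lM A) (MvPolynomial.X (i, j)) = ∑ k, A i k • (MvPolynomial.X (k, j) : MvPolynomial _ ℂ) := by
  rw [lvf_X, Fintype.sum_prod_type]
  simp [lM_apply]

/-- The matrix of `x ↦ x A - A x`: the action of `𝔤` on functions on `𝔤`. -/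
def aM (A : Matrix n n ℂ) : Matrix (n × n) (n × n) ℂ := rM A - lM A

theorem aM_conjTranspose (A : Matrix n n ℂ) : (aM A)ᴴ = aM Aᴴ := by
  rw [aM, aM, conjTranspose_sub, rM_conjTranspose, lM_conjTranspose]

theorem aM_add (A B : Matrix n n ℂ) : aM (A + B) = aM A + aM B := by
  rw [aM, aM, aM, rM_add, lM_add]; abel

theorem aM_smul (c : ℂ) (A : Matrix n n ℂ) : aM (c • A) = c • aM A := by
  rw [aM, aM, rM_smul, lM_smul, smul_sub]

theorem aM_lie (A B : Matrix n n ℂ) : aM (A * B - B * A) = aM A * aM B - aM B * aM A := by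
  have e1 : rM (A * B - B * A) = rM A * rM B - rM B * rM A := by
    rw [← rM_mul, ← rM_mul, sub_eq_add_neg, rM_add, ← neg_one_smul ℂ (B * A), rM_smul,
      neg_one_smul, ← sub_eq_add_neg]
  have e2 : lM (A * B - B * A) = lM B * lM A - lM A * lM B := by
    rw [← lM_mul, ← lM_mul, sub_eq_add_neg, lM_add, ← neg_one_smul ℂ (B * A), lM_smul,
      neg_one_smul, ← sub_eq_add_neg]
  have c1 := lM_rM A B
  have c2 := lM_rM B A
  rw [aM, aM, aM, e1, e2, sub_mul, sub_mul, mul_sub, mul_sub, mul_sub, mul_sub, c1, c2]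
  abel

theorem rM_lie (A B : Matrix n n ℂ) : rM (A * B - B * A) = rM A * rM B - rM B * rM A := by
  rw [← rM_mul, ← rM_mul, sub_eq_add_neg, rM_add, ← neg_one_smul ℂ (B * A), rM_smul,
    neg_one_smul, ← sub_eq_add_neg]

/-- The action of `𝔤` on functions on matrices, `f ↦ df_x (x A - A x)`. -/
def aRep : Matrix n n ℂ →ₗ[ℂ] Derivation ℂ (MvPolynomial (n × n) ℂ) (MvPolynomial (n × n) ℂ) where
  toFun A := lvf (aM A)
  map_add' A B := by rw [aM_add, lvf_add]
  map_smul' c A := by rw [aM_smul, lvf_smul]; rfl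

theorem aRep_apply (A : Matrix n n ℂ) : aRep A = lvf (aM A) := rfl

theorem aRep_lie (A B : Matrix n n ℂ) : aRep (A * B - B * A) = ⁅aRep A, aRep B⁆ := by
  rw [aRep_apply, aM_lie, lvf_lie]; rfl

/-- The left invariant vector fields, `f ↦ df_x (x A)`. -/
def rRep : Matrix n n ℂ →ₗ[ℂ] Derivation ℂ (MvPolynomial (n × n) ℂ) (MvPolynomial (n × n) ℂ) where
  toFun A := lvf (rM A)
  map_add' A B := by rw [rM_add, lvf_add]
  map_smul' c A := by rw [rM_smul, lvf_smul]; rfl

theorem rRep_apply (A : Matrix n n ℂ) : rRep A = lvf (rM A) := rfl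

theorem rRep_lie (A B : Matrix n n ℂ) : rRep (A * B - B * A) = ⁅rRep A, rRep B⁆ := by
  rw [rRep_apply, rM_lie, lvf_lie]; rfl

end Act

section Dat

variable {I : Type} [Fintype I] [DecidableEq I]

open H374 MvPolynomial

theorem aRep_eq (A : Matrix I I ℂ) : aRep A = -H374.ad A := by
  refine derivation_ext fun ⟨i, j⟩ => ?_
  have h : ∀ (B D : Matrix (I × I) (I × I) ℂ), lvf (B - D) = lvf B - lvf D := by
    intro B D
    exact map_sub lvfL B D
  rw [aRep_apply, aM, h, Derivation.sub_apply, lvf_rM_X, lvf_lM_X, Derivation.neg_apply,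
    H374.ad_X, Finset.sum_sub_distrib, neg_sub]
  simp only [smul_eq_C_mul]

/-- The Lie algebra of a datum. -/
def lieS (S : H374.Dat I) : Submodule ℂ (Matrix I I ℂ) where
  carrier := {X | S.Mem X}
  add_mem' {X Y} hX hY i j := by
    rw [Matrix.add_apply, Matrix.add_apply, hX i j, hY i j]; ring
  zero_mem' i j := by simp
  smul_mem' c X hX i j := by
    rw [Matrix.smul_apply, Matrix.smul_apply, hX i j, smul_eq_mul, smul_eq_mul]; ring

theorem mem_lieS {S : H374.Dat I} {X : Matrix I I ℂ} : X ∈ lieS S ↔ S.Mem X := Iff.rfl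

theorem lieS_lie {S : H374.Dat I} : ∀ X ∈ lieS S, ∀ Y ∈ lieS S, X * Y - Y * X ∈ lieS S := by
  intro X hX Y hY i j
  rw [mem_lieS] at hX hY
  have h1 : ∀ (X Y : Matrix I I ℂ), S.Mem X → S.Mem Y → ∀ i j,
      (X * Y) i j = (S.e i * S.e j) * (Y * X) (S.p j) (S.p i) := by
    intro X Y hX hY i j
    rw [Matrix.mul_apply, Matrix.mul_apply, Finset.mul_sum]
    refine Fintype.sum_bijective S.p (Function.Involutive.bijective S.pp) _ _ fun k => ?_
    rw [hX i k, hY k j]
    linear_combination (S.e i * S.e j) * X (S.p k) (S.p i) * Y (S.p j) (S.p k) * S.ee k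
  rw [Matrix.sub_apply, Matrix.sub_apply, h1 X Y hX hY i j, h1 Y X hY hX i j]
  ring

theorem star_e (S : H374.Dat I) (i : I) : star (S.e i) = S.e i := by
  rcases mul_self_eq_one_iff.1 (S.ee i) with h | h <;> rw [h] <;> simp

theorem lieS_conjTranspose {S : H374.Dat I} : ∀ X ∈ lieS S, Xᴴ ∈ lieS S := by
  intro X hX i j
  rw [conjTranspose_apply, conjTranspose_apply, hX j i, star_mul', star_neg, star_mul', star_e,
    star_e, mul_comm (S.e j)]

/-- The datum for the Casimir homotopy. -/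
theorem exists_onb_lieS (S : H374.Dat I) :
    ∃ (k : ℕ) (e : Fin k → Matrix I I ℂ), Onb (lieS S) e := exists_onb _

end Dat

end

end Vale.Agent.P286.H166
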