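import Mathlib

/-!
# Free graded commutative algebras

`Fr τ σ` is the free graded commutative algebra on the odd generators `o t`, `t : τ`, and the even
generators `pl (X s)`, `s : σ`.
-/

namespace Vale.Agent.P286.H166

open TensorProduct MvPolynomial

noncomputable section

set_option linter.unusedSectionVars false

/-- The free graded commutative algebra: exterior algebra ⊗ polynomial algebra. -/
def Fr (τ σ : Type) : Type := ExteriorAlgebra ℂ (τ → ℂ) ⊗[ℂ] MvPolynomial σ ℂ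

namespace Fr

variable {τ σ : Type}

instance : Ring (Fr τ σ) :=
  inferInstanceAs (Ring (ExteriorAlgebra ℂ (τ → ℂ) ⊗[ℂ] MvPolynomial σ ℂ))

instance : Algebra ℂ (Fr τ σ) :=
  inferInstanceAs (Algebra ℂ (ExteriorAlgebra ℂ (τ → ℂ) ⊗[ℂ] MvPolynomial σ ℂ))

/-- The element `l ⊗ f`. -/
def tm (l : ExteriorAlgebra ℂ (τ → ℂ)) (f : MvPolynomial σ ℂ) : Fr τ σ := l ⊗ₜ[ℂ] f

/-- The inclusion of the exterior algebra. -/
def ex : ExteriorAlgebra ℂ (τ → ℂ) →ₐ[ℂ] Fr τ σ := Algebra.TensorProduct.includeLeft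

/-- The inclusion of the polynomials. -/
def pl : MvPolynomial σ ℂ →ₐ[ℂ] Fr τ σ := Algebra.TensorProduct.includeRight

theorem ex_apply (l : ExteriorAlgebra ℂ (τ → ℂ)) : (ex l : Fr τ σ) = tm l 1 := rfl

theorem pl_apply (f : MvPolynomial σ ℂ) : (pl f : Fr τ σ) = tm 1 f := rfl

theorem tm_mul (l l' : ExteriorAlgebra ℂ (τ → ℂ)) (f f' : MvPolynomial σ ℂ) :
    (tm l f * tm l' f' : Fr τ σ) = tm (l * l') (f * f') :=
  Algebra.TensorProduct.tmul_mul_tmul _ _ _ _

theorem ex_mul_pl (l : ExteriorAlgebra ℂ (τ → ℂ)) (f : MvPolynomial σ ℂ) :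
    (ex l * pl f : Fr τ σ) = tm l f := by
  rw [ex_apply, pl_apply, tm_mul, mul_one, one_mul]

/-- Induction on tensors. -/
theorem tm_ind {P : Fr τ σ → Prop} (h0 : P 0) (ht : ∀ l f, P (tm l f))
    (ha : ∀ x y, P x → P y → P (x + y)) (x : Fr τ σ) : P x :=
  TensorProduct.induction_on (motive := P) x h0 ht ha

/-- Linear maps defined on the free graded commutative algebra. -/
def lft {M : Type*} [AddCommGroup M] [Module ℂ M]
    (u : ExteriorAlgebra ℂ (τ → ℂ) →ₗ[ℂ] MvPolynomial σ ℂ →ₗ[ℂ] M) : Fr τ σ →ₗ[ℂ] M :=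
  TensorProduct.lift u

theorem lft_tm {M : Type*} [AddCommGroup M] [Module ℂ M]
    (u : ExteriorAlgebra ℂ (τ → ℂ) →ₗ[ℂ] MvPolynomial σ ℂ →ₗ[ℂ] M)
    (l : ExteriorAlgebra ℂ (τ → ℂ)) (f : MvPolynomial σ ℂ) : lft u (tm l f) = u l f :=
  TensorProduct.lift.tmul _ _

/-- The linear equivalence with the tensor product. -/
def eqv : Fr τ σ ≃ₗ[ℂ] ExteriorAlgebra ℂ (τ → ℂ) ⊗[ℂ] MvPolynomial σ ℂ := LinearEquiv.refl ℂ _

theorem eqv_tm (l : ExteriorAlgebra ℂ (τ → ℂ)) (f : MvPolynomial σ ℂ) :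
    eqv (tm l f) = l ⊗ₜ[ℂ] f := rfl

/-- The tensor product of linear maps. -/
def mp {τ' σ' : Type} (u : ExteriorAlgebra ℂ (τ → ℂ) →ₗ[ℂ] ExteriorAlgebra ℂ (τ' → ℂ))
    (v : MvPolynomial σ ℂ →ₗ[ℂ] MvPolynomial σ' ℂ) : Fr τ σ →ₗ[ℂ] Fr τ' σ' :=
  TensorProduct.map u v

theorem mp_tm {τ' σ' : Type} (u : ExteriorAlgebra ℂ (τ → ℂ) →ₗ[ℂ] ExteriorAlgebra ℂ (τ' → ℂ))
    (v : MvPolynomial σ ℂ →ₗ[ℂ] MvPolynomial σ' ℂ) (l : ExteriorAlgebra ℂ (τ → ℂ))
    (f : MvPolynomial σ ℂ) : mp u v (tm l f) = tm (u l) (v f) := rfl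

theorem pl_comm (f : MvPolynomial σ ℂ) (x : Fr τ σ) : pl f * x = x * pl f := by
  induction x using tm_ind with
  | h0 => rw [mul_zero, zero_mul]
  | ha x y hx hy => rw [mul_add, add_mul, hx, hy]
  | ht l g => rw [pl_apply, tm_mul, tm_mul, one_mul, mul_one, mul_comm]

/-- The odd generators, linear combinations. -/
def ol (v : τ → ℂ) : Fr τ σ := ex (ExteriorAlgebra.ι ℂ v)

theorem ol_add (v w : τ → ℂ) : (ol (v + w) : Fr τ σ) = ol v + ol w := by
  rw [ol, map_add, map_add]; rfl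

theorem ol_smul (c : ℂ) (v : τ → ℂ) : (ol (c • v) : Fr τ σ) = c • ol v := by
  rw [ol, map_smul, map_smul]; rfl

theorem ol_sq (v : τ → ℂ) : (ol v * ol v : Fr τ σ) = 0 := by
  rw [ol, ← map_mul ex, ExteriorAlgebra.ι_sq_zero, map_zero]

theorem ol_mul_ol (v w : τ → ℂ) : (ol v * ol w : Fr τ σ) = -(ol w * ol v) := by
  rw [ol, ol, ← map_mul ex, ← map_mul ex, ← map_neg ex]
  congr 1
  exact eq_neg_of_add_eq_zero_left (ExteriorAlgebra.ι_add_mul_swap v w)

/-- The parity automorphism. -/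
def sg : Fr τ σ →ₐ[ℂ] Fr τ σ :=
  Algebra.TensorProduct.map CliffordAlgebra.involute (AlgHom.id ℂ _)

theorem sg_tm (l : ExteriorAlgebra ℂ (τ → ℂ)) (f : MvPolynomial σ ℂ) :
    (sg (tm l f) : Fr τ σ) = tm (CliffordAlgebra.involute l) f := rfl

theorem sg_sg (x : Fr τ σ) : sg (sg x) = x := by
  induction x using tm_ind with
  | h0 => rw [map_zero, map_zero]
  | ha x y hx hy => rw [map_add, map_add, hx, hy]
  | ht l g => rw [sg_tm, sg_tm, CliffordAlgebra.involute_involute]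

theorem sg_pl (f : MvPolynomial σ ℂ) : (sg (pl f) : Fr τ σ) = pl f := by
  rw [pl_apply, sg_tm, map_one]

theorem sg_ex (l : ExteriorAlgebra ℂ (τ → ℂ)) :
    (sg (ex l) : Fr τ σ) = ex (CliffordAlgebra.involute l) := rfl

theorem sg_ol (v : τ → ℂ) : (sg (ol v) : Fr τ σ) = -ol v := by
  rw [ol, sg_ex]
  rw [show CliffordAlgebra.involute (ExteriorAlgebra.ι ℂ v) = -ExteriorAlgebra.ι ℂ v from
    CliffordAlgebra.involute_ι v, map_neg]

/-- Induction. -/
theorem ind {P : Fr τ σ → Prop} (hp : ∀ f, P (pl f)) (ho : ∀ v x, P x → P (ol v * x))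
    (ha : ∀ x y, P x → P y → P (x + y)) (x : Fr τ σ) : P x := by
  have h1 : ∀ (l : ExteriorAlgebra ℂ (τ → ℂ)) (x : Fr τ σ), (∀ f, P (pl f * x)) →
      ∀ f, P (pl f * (ex l * x)) := by
    intro l
    induction l using ExteriorAlgebra.induction with
    | algebraMap r =>
      intro x hx f
      have hr : (ex (algebraMap ℂ _ r) : Fr τ σ) = pl (C r) := by
        rw [AlgHom.commutes, ← MvPolynomial.algebraMap_eq, AlgHom.commutes]
      rw [hr, ← mul_assoc, ← map_mul]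
      exact hx _
    | ι v =>
      intro x hx f
      change P (pl f * (ol v * x))
      rw [← mul_assoc, pl_comm, mul_assoc]
      exact ho v _ (hx f)
    | mul a b ha' hb =>
      intro x hx f
      rw [map_mul, mul_assoc]
      exact ha' _ (hb _ hx) f
    | add a b ha' hb =>
      intro x hx f
      rw [map_add, add_mul, mul_add]
      exact ha _ _ (ha' _ hx f) (hb _ hx f)
  induction x using tm_ind with
  | h0 => have := hp 0; rwa [map_zero] at this
  | ha x y hx hy => exact ha _ _ hx hy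
  | ht l g =>
    rw [← ex_mul_pl]
    have := h1 l (pl g) (fun f => by rw [← map_mul]; exact hp _) 1
    rwa [map_one, one_mul] at this

/-- Graded commutativity. -/
theorem comm_aux (x : Fr τ σ) : (∀ y, (x + sg x) * y = y * (x + sg x)) ∧
    ∀ y, (x - sg x) * y = sg y * (x - sg x) := by
  have ho : ∀ (v : τ → ℂ) (y : Fr τ σ), ol v * y = sg y * ol v := by
    intro v y
    induction y using ind with
    | hp f => rw [sg_pl, pl_comm]
    | ho w y hy => rw [map_mul, sg_ol, mul_assoc, ← hy, ← mul_assoc, ol_mul_ol, neg_mul,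
        neg_mul, mul_assoc]
    | ha x y hx hy => rw [mul_add, hx, hy, map_add, add_mul]
  induction x using ind with
  | hp f =>
    refine ⟨fun y => ?_, fun y => ?_⟩
    · rw [sg_pl, ← map_add, pl_comm]
    · rw [sg_pl, sub_self, zero_mul, mul_zero]
  | ho v x hx =>
    have e1 : ol v * x + sg (ol v * x) = ol v * (x - sg x) := by
      rw [map_mul, sg_ol, mul_sub, neg_mul, sub_eq_add_neg]
    have e2 : ol v * x - sg (ol v * x) = ol v * (x + sg x) := by
      rw [map_mul, sg_ol, mul_add, neg_mul, sub_neg_eq_add]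
    refine ⟨fun y => ?_, fun y => ?_⟩
    · rw [e1, mul_assoc, hx.2, ← mul_assoc, ho, sg_sg, mul_assoc]
    · rw [e2, mul_assoc, hx.1, ← mul_assoc, ho, mul_assoc]
  | ha a b ha hb =>
    have e1 : a + b + sg (a + b) = (a + sg a) + (b + sg b) := by rw [map_add]; abel
    have e2 : a + b - sg (a + b) = (a - sg a) + (b - sg b) := by rw [map_add]; abel
    refine ⟨fun y => ?_, fun y => ?_⟩
    · rw [e1, add_mul, ha.1, hb.1, ← mul_add]
    · rw [e2, add_mul, ha.2, hb.2, ← mul_add]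

/-- Even elements are central. -/
theorem even_comm {x : Fr τ σ} (h : sg x = x) (y : Fr τ σ) : x * y = y * x := by
  have h1 := (comm_aux x).1 y
  rw [h, ← two_smul ℂ, smul_mul_assoc, mul_smul_comm] at h1
  exact smul_right_injective _ (two_ne_zero (α := ℂ)) h1

/-- Odd elements. -/
theorem odd_comm {x : Fr τ σ} (h : sg x = -x) (y : Fr τ σ) : x * y = sg y * x := by
  have h1 := (comm_aux x).2 y
  rw [h, sub_neg_eq_add, ← two_smul ℂ, smul_mul_assoc, mul_smul_comm] at h1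
  exact smul_right_injective _ (two_ne_zero (α := ℂ)) h1

theorem ol_comm (v : τ → ℂ) (y : Fr τ σ) : ol v * y = sg y * ol v := odd_comm (sg_ol v) y

section Gen

variable [DecidableEq τ]

/-- The odd generators. -/
def o (t : τ) : Fr τ σ := ol (Pi.single t 1)

/-- The even generators. -/
def e (s : σ) : Fr τ σ := pl (X s)

theorem sg_o (t : τ) : (sg (o t) : Fr τ σ) = -o t := sg_ol _

theorem sg_e (s : σ) : (sg (e s) : Fr τ σ) = e s := sg_pl _

theorem o_o (t u : τ) : (o t * o u : Fr τ σ) = -(o u * o t) := ol_mul_ol _ _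

theorem o_comm (t : τ) (y : Fr τ σ) : o t * y = sg y * o t := ol_comm _ y

theorem e_comm (s : σ) (y : Fr τ σ) : e s * y = y * e s := pl_comm _ y

theorem ol_eq [Fintype τ] (v : τ → ℂ) : (ol v : Fr τ σ) = ∑ t, v t • o t := by
  have h : v = ∑ t, v t • (Pi.single t (1 : ℂ) : τ → ℂ) := by
    ext u
    rw [Finset.sum_apply, Finset.sum_eq_single u]
    · simp
    · intro t _ ht
      simp [ht.symm]
    · intro hu
      exact absurd (Finset.mem_univ u) hu
  have h2 : ∀ (s : Finset τ), (ol (∑ t ∈ s, v t • (Pi.single t (1 : ℂ) : τ → ℂ)) : Fr τ σ) =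
      ∑ t ∈ s, v t • o t := by
    intro s
    induction s using Finset.induction_on with
    | empty => rw [Finset.sum_empty, Finset.sum_empty, ol, map_zero, map_zero]
    | insert a s ha ih => rw [Finset.sum_insert ha, Finset.sum_insert ha, ol_add, ih, ol_smul]; rfl
  conv_lhs => rw [h]
  exact h2 _

theorem indo [Fintype τ] {P : Fr τ σ → Prop} (hp : ∀ f, P (pl f)) (ho : ∀ t x, P x → P (o t * x))
    (hs : ∀ (c : ℂ) x, P x → P (c • x)) (ha : ∀ x y, P x → P y → P (x + y)) (x : Fr τ σ) :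
    P x := by
  induction x using ind with
  | hp f => exact hp f
  | ha x y hx hy => exact ha x y hx hy
  | ho v x hx =>
    rw [ol_eq, Finset.sum_mul]
    refine Finset.sum_induction _ P ha ?_ fun t _ => ?_
    · have := hp 0; rwa [map_zero] at this
    · rw [smul_mul_assoc]
      exact hs _ _ (ho t x hx)

end Gen

/-- The odd derivation `∂` with `∂ (ol v) = φ v` and `∂ (pl f) = 0`. -/
def dt (φ : Module.Dual ℂ (τ → ℂ)) : Fr τ σ →ₗ[ℂ] Fr τ σ :=
  mp (CliffordAlgebra.contractLeft φ) LinearMap.id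

theorem dt_tm (φ : Module.Dual ℂ (τ → ℂ)) (l : ExteriorAlgebra ℂ (τ → ℂ)) (f : MvPolynomial σ ℂ) :
    (dt φ (tm l f) : Fr τ σ) = tm (CliffordAlgebra.contractLeft φ l) f := rfl

theorem dt_pl (φ : Module.Dual ℂ (τ → ℂ)) (f : MvPolynomial σ ℂ) : (dt φ (pl f) : Fr τ σ) = 0 := by
  rw [pl_apply, dt_tm, CliffordAlgebra.contractLeft_one]
  exact TensorProduct.zero_tmul _ _

theorem dt_ol_mul (φ : Module.Dual ℂ (τ → ℂ)) (v : τ → ℂ) (x : Fr τ σ) :
    dt φ (ol v * x) = φ v • x - ol v * dt φ x := by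
  induction x using tm_ind with
  | h0 => rw [mul_zero, map_zero, mul_zero, smul_zero, sub_zero]
  | ha x y hx hy => rw [mul_add, map_add, hx, hy, map_add, mul_add, smul_add]; abel
  | ht l f =>
    rw [ol, ex_apply, tm_mul, one_mul, dt_tm, dt_tm, tm_mul, one_mul,
      ExteriorAlgebra.ι, CliffordAlgebra.contractLeft_ι_mul]
    exact TensorProduct.sub_tmul _ _ _

theorem dt_mul (φ : Module.Dual ℂ (τ → ℂ)) (x y : Fr τ σ) :
    dt φ (x * y) = dt φ x * y + sg x * dt φ y := by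
  induction x using ind with
  | hp f =>
    rw [dt_pl, zero_mul, zero_add, sg_pl]
    induction y using tm_ind with
    | h0 => rw [mul_zero, map_zero, mul_zero]
    | ha x y hx hy => rw [mul_add, map_add, hx, hy, map_add, mul_add]
    | ht l g => rw [pl_apply, tm_mul, one_mul, dt_tm, dt_tm, tm_mul, one_mul]
  | ho v x hx =>
    rw [mul_assoc, dt_ol_mul, hx, dt_ol_mul, map_mul, sg_ol, sub_mul, smul_mul_assoc, mul_add,
      mul_assoc, neg_mul, neg_mul, mul_assoc]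
    abel
  | ha a b ha hb => rw [add_mul, map_add, ha, hb, map_add, map_add, add_mul, add_mul]; abel

theorem dt_ol (φ : Module.Dual ℂ (τ → ℂ)) (v : τ → ℂ) :
    (dt φ (ol v) : Fr τ σ) = φ v • 1 := by
  have := dt_ol_mul (σ := σ) φ v 1
  rwa [mul_one, ← map_one pl, dt_pl, mul_zero, sub_zero, map_one] at this

/-- The even derivation `∂/∂X_s`. -/
def dp (s : σ) : Fr τ σ →ₗ[ℂ] Fr τ σ :=
  mp LinearMap.id (pderiv s : Derivation ℂ (MvPolynomial σ ℂ) (MvPolynomial σ ℂ)).toLinearMap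

theorem dp_tm (s : σ) (l : ExteriorAlgebra ℂ (τ → ℂ)) (f : MvPolynomial σ ℂ) :
    (dp s (tm l f) : Fr τ σ) = tm l (pderiv s f) := rfl

theorem dp_ex (s : σ) (l : ExteriorAlgebra ℂ (τ → ℂ)) : (dp s (ex l) : Fr τ σ) = 0 := by
  rw [ex_apply, dp_tm, pderiv_one]
  exact TensorProduct.tmul_zero _ _

theorem dp_ol (s : σ) (v : τ → ℂ) : (dp s (ol v) : Fr τ σ) = 0 := dp_ex _ _

theorem dp_pl (s : σ) (f : MvPolynomial σ ℂ) : (dp s (pl f) : Fr τ σ) = pl (pderiv s f) := rfl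

theorem tm_add (l : ExteriorAlgebra ℂ (τ → ℂ)) (f g : MvPolynomial σ ℂ) :
    (tm l (f + g) : Fr τ σ) = tm l f + tm l g := TensorProduct.tmul_add _ _ _

theorem add_tm (l l' : ExteriorAlgebra ℂ (τ → ℂ)) (f : MvPolynomial σ ℂ) :
    (tm (l + l') f : Fr τ σ) = tm l f + tm l' f := TensorProduct.add_tmul _ _ _

theorem dp_mul (s : σ) (x y : Fr τ σ) : dp s (x * y) = dp s x * y + x * dp s y := by
  induction x using tm_ind with
  | h0 => rw [zero_mul, map_zero, zero_mul, zero_mul, add_zero]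
  | ha a b ha hb => rw [add_mul, map_add, ha, hb, map_add, add_mul, add_mul]; abel
  | ht l f =>
    induction y using tm_ind with
    | h0 => rw [mul_zero, map_zero, mul_zero, mul_zero, add_zero]
    | ha a b ha hb => rw [mul_add, map_add, ha, hb, map_add, mul_add, mul_add]; abel
    | ht l' f' =>
      rw [tm_mul, dp_tm, dp_tm, dp_tm, tm_mul, tm_mul, pderiv_mul, tm_add]

theorem dt_sg (φ : Module.Dual ℂ (τ → ℂ)) (x : Fr τ σ) : sg (dt φ x) = -dt φ (sg x) := by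
  induction x using ind with
  | hp f => rw [dt_pl, sg_pl, dt_pl, map_zero, neg_zero]
  | ho v x hx =>
    rw [dt_ol_mul, map_sub, map_smul, map_mul, sg_ol, hx, map_mul, sg_ol, neg_mul, neg_mul,
      map_neg, dt_ol_mul]
    rw [mul_neg]; abel
  | ha a b ha hb => rw [map_add, map_add, ha, hb, map_add, map_add]; abel

theorem dp_sg (s : σ) (x : Fr τ σ) : sg (dp s x) = dp s (sg x) := by
  induction x using tm_ind with
  | h0 => rw [map_zero, map_zero, map_zero]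
  | ha a b ha hb => rw [map_add, map_add, ha, hb, map_add, map_add]
  | ht l f => rfl

/-- Odd derivations. -/
structure IsOD (D : Fr τ σ →ₗ[ℂ] Fr τ σ) : Prop where
  mul : ∀ x y, D (x * y) = D x * y + sg x * D y

/-- Even derivations. -/
structure IsED (D : Fr τ σ →ₗ[ℂ] Fr τ σ) : Prop where
  mul : ∀ x y, D (x * y) = D x * y + x * D y

theorem IsOD.one {D : Fr τ σ →ₗ[ℂ] Fr τ σ} (h : IsOD D) : D 1 = 0 := by
  have := h.mul 1 1
  rwa [mul_one, mul_one, map_one sg, one_mul, left_eq_add] at this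

theorem IsED.one {D : Fr τ σ →ₗ[ℂ] Fr τ σ} (h : IsED D) : D 1 = 0 := by
  have := h.mul 1 1
  rwa [mul_one, mul_one, one_mul, left_eq_add] at this

theorem IsOD.pl_eq_zero {D : Fr τ σ →ₗ[ℂ] Fr τ σ} (h : IsOD D) (hs : ∀ s, D (e s) = 0)
    (f : MvPolynomial σ ℂ) : D (pl f) = 0 := by
  induction f using MvPolynomial.induction_on with
  | C a =>
    rw [← MvPolynomial.algebraMap_eq, AlgHom.commutes, Algebra.algebraMap_eq_smul_one, map_smul,
      h.one, smul_zero]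
  | add p q hp hq => rw [map_add, map_add, hp, hq, add_zero]
  | mul_X p s hp =>
    rw [map_mul, h.mul, hp, zero_mul, zero_add]
    change _ * D (e s) = 0
    rw [hs, mul_zero]

theorem IsED.pl_eq_zero {D : Fr τ σ →ₗ[ℂ] Fr τ σ} (h : IsED D) (hs : ∀ s, D (e s) = 0)
    (f : MvPolynomial σ ℂ) : D (pl f) = 0 := by
  induction f using MvPolynomial.induction_on with
  | C a =>
    rw [← MvPolynomial.algebraMap_eq, AlgHom.commutes, Algebra.algebraMap_eq_smul_one, map_smul,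
      h.one, smul_zero]
  | add p q hp hq => rw [map_add, map_add, hp, hq, add_zero]
  | mul_X p s hp =>
    rw [map_mul, h.mul, hp, zero_mul, zero_add]
    change _ * D (e s) = 0
    rw [hs, mul_zero]

section Ext

variable [Fintype τ] [DecidableEq τ]

theorem IsOD.eq_zero {D : Fr τ σ →ₗ[ℂ] Fr τ σ} (h : IsOD D) (ho : ∀ t, D (o t) = 0)
    (he : ∀ s, D (e s) = 0) : D = 0 := by
  refine LinearMap.ext fun x => ?_
  induction x using indo with
  | hp f => exact h.pl_eq_zero he f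
  | ho t x hx => rw [h.mul, ho, zero_mul, hx, LinearMap.zero_apply, mul_zero, add_zero,
      LinearMap.zero_apply]
  | hs c x hx => rw [map_smul, map_smul, hx]
  | ha x y hx hy => rw [map_add, map_add, hx, hy]

theorem IsED.eq_zero {D : Fr τ σ →ₗ[ℂ] Fr τ σ} (h : IsED D) (ho : ∀ t, D (o t) = 0)
    (he : ∀ s, D (e s) = 0) : D = 0 := by
  refine LinearMap.ext fun x => ?_
  induction x using indo with
  | hp f => exact h.pl_eq_zero he f
  | ho t x hx => rw [h.mul, ho, zero_mul, hx, LinearMap.zero_apply, mul_zero, add_zero,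
      LinearMap.zero_apply]
  | hs c x hx => rw [map_smul, map_smul, hx]
  | ha x y hx hy => rw [map_add, map_add, hx, hy]

theorem IsOD.add {D D' : Fr τ σ →ₗ[ℂ] Fr τ σ} (h : IsOD D) (h' : IsOD D') : IsOD (D + D') :=
  ⟨fun x y => by
    simp only [LinearMap.add_apply]
    rw [h.mul, h'.mul, add_mul, mul_add]; abel⟩

theorem IsOD.sub {D D' : Fr τ σ →ₗ[ℂ] Fr τ σ} (h : IsOD D) (h' : IsOD D') : IsOD (D - D') :=
  ⟨fun x y => by
    simp only [LinearMap.sub_apply]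
    rw [h.mul, h'.mul, sub_mul, mul_sub]; abel⟩

theorem IsOD.smul {D : Fr τ σ →ₗ[ℂ] Fr τ σ} (c : ℂ) (h : IsOD D) : IsOD (c • D) :=
  ⟨fun x y => by
    simp only [LinearMap.smul_apply]
    rw [h.mul, smul_add, smul_mul_assoc, mul_smul_comm]⟩

theorem IsED.add {D D' : Fr τ σ →ₗ[ℂ] Fr τ σ} (h : IsED D) (h' : IsED D') : IsED (D + D') :=
  ⟨fun x y => by
    simp only [LinearMap.add_apply]
    rw [h.mul, h'.mul, add_mul, mul_add]; abel⟩

theorem IsED.sub {D D' : Fr τ σ →ₗ[ℂ] Fr τ σ} (h : IsED D) (h' : IsED D') : IsED (D - D') :=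
  ⟨fun x y => by
    simp only [LinearMap.sub_apply]
    rw [h.mul, h'.mul, sub_mul, mul_sub]; abel⟩

theorem IsED.smul {D : Fr τ σ →ₗ[ℂ] Fr τ σ} (c : ℂ) (h : IsED D) : IsED (c • D) :=
  ⟨fun x y => by
    simp only [LinearMap.smul_apply]
    rw [h.mul, smul_add, smul_mul_assoc, mul_smul_comm]⟩

theorem IsOD.zero : IsOD (0 : Fr τ σ →ₗ[ℂ] Fr τ σ) :=
  ⟨fun x y => by simp only [LinearMap.zero_apply, zero_mul, mul_zero, add_zero]⟩

theorem IsED.zero : IsED (0 : Fr τ σ →ₗ[ℂ] Fr τ σ) :=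
  ⟨fun x y => by simp only [LinearMap.zero_apply, zero_mul, mul_zero, add_zero]⟩

theorem IsOD.sum {κ : Type*} (s : Finset κ) {D : κ → Fr τ σ →ₗ[ℂ] Fr τ σ}
    (h : ∀ k ∈ s, IsOD (D k)) : IsOD (∑ k ∈ s, D k) :=
  Finset.sum_induction _ IsOD (fun _ _ => IsOD.add) IsOD.zero h

theorem IsED.sum {κ : Type*} (s : Finset κ) {D : κ → Fr τ σ →ₗ[ℂ] Fr τ σ}
    (h : ∀ k ∈ s, IsED (D k)) : IsED (∑ k ∈ s, D k) :=
  Finset.sum_induction _ IsED (fun _ _ => IsED.add) IsED.zero h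

theorem IsOD.ext {D D' : Fr τ σ →ₗ[ℂ] Fr τ σ} (h : IsOD D) (h' : IsOD D')
    (ho : ∀ t, D (o t) = D' (o t)) (he : ∀ s, D (e s) = D' (e s)) : D = D' :=
  sub_eq_zero.1 ((h.sub h').eq_zero (fun t => sub_eq_zero.2 (ho t)) fun s => sub_eq_zero.2 (he s))

theorem IsED.ext {D D' : Fr τ σ →ₗ[ℂ] Fr τ σ} (h : IsED D) (h' : IsED D')
    (ho : ∀ t, D (o t) = D' (o t)) (he : ∀ s, D (e s) = D' (e s)) : D = D' :=
  sub_eq_zero.1 ((h.sub h').eq_zero (fun t => sub_eq_zero.2 (ho t)) fun s => sub_eq_zero.2 (he s))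

/-- `D` anticommutes with the sign. -/
def SgA (D : Fr τ σ →ₗ[ℂ] Fr τ σ) : Prop := ∀ x, sg (D x) = -D (sg x)

/-- `D` commutes with the sign. -/
def SgC (D : Fr τ σ →ₗ[ℂ] Fr τ σ) : Prop := ∀ x, sg (D x) = D (sg x)

theorem IsOD.sgA {D : Fr τ σ →ₗ[ℂ] Fr τ σ} (h : IsOD D) (ho : ∀ t, sg (D (o t)) = D (o t))
    (he : ∀ s, sg (D (e s)) = -D (e s)) : SgA D := by
  have h1 : IsOD (sg.toLinearMap ∘ₗ D ∘ₗ sg.toLinearMap) := ⟨fun x y => by
    simp only [LinearMap.comp_apply, AlgHom.toLinearMap_apply]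
    rw [map_mul, h.mul, map_add, map_mul, map_mul, sg_sg, sg_sg]⟩
  have h2 : sg.toLinearMap ∘ₗ D ∘ₗ sg.toLinearMap = -D := by
    have h3 : IsOD (-D) := by rw [← neg_one_smul ℂ D]; exact h.smul _
    refine h1.ext h3 (fun t => ?_) fun s => ?_
    · simp only [LinearMap.comp_apply, AlgHom.toLinearMap_apply, LinearMap.neg_apply]
      rw [sg_o, map_neg, map_neg, ho]
    · simp only [LinearMap.comp_apply, AlgHom.toLinearMap_apply, LinearMap.neg_apply]
      rw [sg_e, he]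
  intro x
  have h3 := congrArg (fun T : Fr τ σ →ₗ[ℂ] Fr τ σ => T (sg x)) h2
  simp only [LinearMap.comp_apply, AlgHom.toLinearMap_apply, LinearMap.neg_apply] at h3
  rwa [sg_sg] at h3

theorem IsED.sgC {D : Fr τ σ →ₗ[ℂ] Fr τ σ} (h : IsED D) (ho : ∀ t, sg (D (o t)) = -D (o t))
    (he : ∀ s, sg (D (e s)) = D (e s)) : SgC D := by
  have h1 : IsED (sg.toLinearMap ∘ₗ D ∘ₗ sg.toLinearMap) := ⟨fun x y => by
    simp only [LinearMap.comp_apply, AlgHom.toLinearMap_apply]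
    rw [map_mul, h.mul, map_add, map_mul, map_mul, sg_sg, sg_sg]⟩
  have h2 : sg.toLinearMap ∘ₗ D ∘ₗ sg.toLinearMap = D := by
    refine h1.ext h (fun t => ?_) fun s => ?_
    · simp only [LinearMap.comp_apply, AlgHom.toLinearMap_apply]
      rw [sg_o, map_neg, map_neg, ho, neg_neg]
    · simp only [LinearMap.comp_apply, AlgHom.toLinearMap_apply]
      rw [sg_e, he]
  intro x
  have h3 := congrArg (fun T : Fr τ σ →ₗ[ℂ] Fr τ σ => T (sg x)) h2
  simp only [LinearMap.comp_apply, AlgHom.toLinearMap_apply] at h3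
  rwa [sg_sg] at h3

/-- The anticommutator of two odd derivations. -/
theorem IsOD.anti {D D' : Fr τ σ →ₗ[ℂ] Fr τ σ} (h : IsOD D) (h' : IsOD D') (hs : SgA D)
    (hs' : SgA D') : IsED (D ∘ₗ D' + D' ∘ₗ D) :=
  ⟨fun x y => by
    simp only [LinearMap.add_apply, LinearMap.comp_apply]
    rw [h'.mul, h.mul, map_add, map_add, h.mul, h.mul, h'.mul, h'.mul, sg_sg, hs, hs', neg_mul,
      neg_mul, add_mul, mul_add]
    abel⟩

/-- The square of an odd derivation. -/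
theorem IsOD.sq {D : Fr τ σ →ₗ[ℂ] Fr τ σ} (h : IsOD D) (hs : SgA D) : IsED (D ∘ₗ D) :=
  ⟨fun x y => by
    simp only [LinearMap.comp_apply]
    rw [h.mul, map_add, h.mul, h.mul, sg_sg, hs, neg_mul]
    abel⟩

theorem IsOD.sq_zero {D : Fr τ σ →ₗ[ℂ] Fr τ σ} (h : IsOD D) (hs : SgA D)
    (ho : ∀ t, D (D (o t)) = 0) (he : ∀ s, D (D (e s)) = 0) (x : Fr τ σ) : D (D x) = 0 := by
  have := (h.sq hs).eq_zero ho he
  exact congrArg (fun T : Fr τ σ →ₗ[ℂ] Fr τ σ => T x) this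

/-- The commutator of an even derivation and an odd derivation. -/
theorem IsED.comm_odd {D D' : Fr τ σ →ₗ[ℂ] Fr τ σ} (h : IsED D) (h' : IsOD D') (hs : SgC D) :
    IsOD (D ∘ₗ D' - D' ∘ₗ D) :=
  ⟨fun x y => by
    simp only [LinearMap.sub_apply, LinearMap.comp_apply]
    rw [h'.mul, h.mul, map_add, map_add, h.mul, h.mul, h'.mul, h'.mul, hs, sub_mul, mul_sub]
    abel⟩

/-- The commutator of two even derivations. -/
theorem IsED.comm_even {D D' : Fr τ σ →ₗ[ℂ] Fr τ σ} (h : IsED D) (h' : IsED D') :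
    IsED (D ∘ₗ D' - D' ∘ₗ D) :=
  ⟨fun x y => by
    simp only [LinearMap.sub_apply, LinearMap.comp_apply]
    rw [h'.mul, h.mul, map_add, map_add, h.mul, h.mul, h'.mul, h'.mul, sub_mul, mul_sub]
    abel⟩

/-- The derivative with respect to the odd generator. -/
def do' (t : τ) : Fr τ σ →ₗ[ℂ] Fr τ σ := dt (LinearMap.proj t)

theorem isOD_dt (φ : Module.Dual ℂ (τ → ℂ)) : IsOD (dt φ : Fr τ σ →ₗ[ℂ] Fr τ σ) := ⟨dt_mul φ⟩

theorem isOD_do (t : τ) : IsOD (do' t : Fr τ σ →ₗ[ℂ] Fr τ σ) := isOD_dt _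

theorem isED_dp (s : σ) : IsED (dp s : Fr τ σ →ₗ[ℂ] Fr τ σ) := ⟨dp_mul s⟩

theorem sgA_dt (φ : Module.Dual ℂ (τ → ℂ)) : SgA (dt φ : Fr τ σ →ₗ[ℂ] Fr τ σ) := dt_sg φ

theorem sgC_dp (s : σ) : SgC (dp s : Fr τ σ →ₗ[ℂ] Fr τ σ) := dp_sg s

theorem do_o (t u : τ) : (do' t (o u) : Fr τ σ) = if t = u then 1 else 0 := by
  rw [do', o, dt_ol, LinearMap.proj_apply, Pi.single_apply]
  split_ifs <;> simp

theorem do_e (t : τ) (s : σ) : (do' t (e s) : Fr τ σ) = 0 := dt_pl _ _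

theorem do_pl (t : τ) (f : MvPolynomial σ ℂ) : (do' t (pl f) : Fr τ σ) = 0 := dt_pl _ _

theorem dp_o (s : σ) (t : τ) : (dp s (o t) : Fr τ σ) = 0 := dp_ol _ _

theorem dp_e [DecidableEq σ] (s u : σ) : (dp s (e u) : Fr τ σ) = if s = u then 1 else 0 := by
  rw [e, dp_pl, pderiv_X, Pi.single_apply]
  split_ifs with h1 h2 h2
  · rw [map_one]
  · exact absurd h1.symm h2
  · exact absurd h2.symm h1
  · rw [map_zero]

theorem dt_dt (φ ψ : Module.Dual ℂ (τ → ℂ)) (x : Fr τ σ) : dt φ (dt ψ x) = -dt ψ (dt φ x) := by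
  have h := (isOD_dt (σ := σ) φ).anti (isOD_dt ψ) (sgA_dt φ) (sgA_dt ψ)
  have h2 := h.eq_zero (fun t => by
    simp only [LinearMap.add_apply, LinearMap.comp_apply]
    rw [o, dt_ol, dt_ol, map_smul, map_smul, (isOD_dt φ).one, (isOD_dt ψ).one, smul_zero,
      smul_zero, add_zero]) (fun s => by
    simp only [LinearMap.add_apply, LinearMap.comp_apply]
    rw [e, dt_pl, dt_pl, map_zero, map_zero, add_zero])
  have h3 := congrArg (fun T : Fr τ σ →ₗ[ℂ] Fr τ σ => T x) h2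
  simp only [LinearMap.add_apply, LinearMap.comp_apply, LinearMap.zero_apply] at h3
  exact eq_neg_of_add_eq_zero_left h3

theorem IsOD.mulL {D : Fr τ σ →ₗ[ℂ] Fr τ σ} (h : IsOD D) {a : Fr τ σ} (ha : sg a = a) :
    IsOD (LinearMap.mulLeft ℂ a ∘ₗ D) :=
  ⟨fun x y => by
    simp only [LinearMap.comp_apply, LinearMap.mulLeft_apply]
    rw [h.mul, mul_add, ← mul_assoc, ← mul_assoc, even_comm ha (sg x), mul_assoc, mul_assoc]⟩

theorem IsED.mulL {D : Fr τ σ →ₗ[ℂ] Fr τ σ} (h : IsED D) {a : Fr τ σ} (ha : sg a = -a) :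
    IsOD (LinearMap.mulLeft ℂ a ∘ₗ D) :=
  ⟨fun x y => by
    simp only [LinearMap.comp_apply, LinearMap.mulLeft_apply]
    rw [h.mul, mul_add, ← mul_assoc, ← mul_assoc, odd_comm ha x, mul_assoc, mul_assoc]⟩

theorem IsOD.mulL' {D : Fr τ σ →ₗ[ℂ] Fr τ σ} (h : IsOD D) {a : Fr τ σ} (ha : sg a = -a) :
    IsED (LinearMap.mulLeft ℂ a ∘ₗ D) :=
  ⟨fun x y => by
    simp only [LinearMap.comp_apply, LinearMap.mulLeft_apply]
    rw [h.mul, mul_add, ← mul_assoc, ← mul_assoc, odd_comm ha (sg x), sg_sg, mul_assoc, mul_assoc]⟩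

theorem IsED.mulL' {D : Fr τ σ →ₗ[ℂ] Fr τ σ} (h : IsED D) {a : Fr τ σ} (ha : sg a = a) :
    IsED (LinearMap.mulLeft ℂ a ∘ₗ D) :=
  ⟨fun x y => by
    simp only [LinearMap.comp_apply, LinearMap.mulLeft_apply]
    rw [h.mul, mul_add, ← mul_assoc, ← mul_assoc, even_comm ha x, mul_assoc, mul_assoc]⟩

variable [Fintype σ] [DecidableEq σ]

/-- The odd derivation with given values on the generators. -/
def od (a : τ → Fr τ σ) (b : σ → Fr τ σ) : Fr τ σ →ₗ[ℂ] Fr τ σ :=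
  ∑ t, LinearMap.mulLeft ℂ (a t) ∘ₗ do' t + ∑ s, LinearMap.mulLeft ℂ (b s) ∘ₗ dp s

theorem od_o (a : τ → Fr τ σ) (b : σ → Fr τ σ) (t : τ) : od a b (o t) = a t := by
  rw [od, LinearMap.add_apply, LinearMap.sum_apply, LinearMap.sum_apply]
  simp only [LinearMap.comp_apply, LinearMap.mulLeft_apply, do_o, dp_o, mul_ite, mul_one, mul_zero,
    Finset.sum_ite_eq', Finset.mem_univ, if_true, Finset.sum_const_zero, add_zero]

theorem od_e (a : τ → Fr τ σ) (b : σ → Fr τ σ) (s : σ) : od a b (e s) = b s := by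
  rw [od, LinearMap.add_apply, LinearMap.sum_apply, LinearMap.sum_apply]
  simp only [LinearMap.comp_apply, LinearMap.mulLeft_apply, do_e, dp_e, mul_ite, mul_one, mul_zero,
    Finset.sum_ite_eq', Finset.mem_univ, if_true, Finset.sum_const_zero, zero_add]

theorem isOD_od {a : τ → Fr τ σ} {b : σ → Fr τ σ} (ha : ∀ t, sg (a t) = a t)
    (hb : ∀ s, sg (b s) = -b s) : IsOD (od a b) :=
  (IsOD.sum _ fun t _ => (isOD_do t).mulL (ha t)).add
    (IsOD.sum _ fun s _ => (isED_dp s).mulL (hb s))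

theorem sgA_od {a : τ → Fr τ σ} {b : σ → Fr τ σ} (ha : ∀ t, sg (a t) = a t)
    (hb : ∀ s, sg (b s) = -b s) : SgA (od a b) :=
  (isOD_od ha hb).sgA (fun t => by rw [od_o, ha]) fun s => by rw [od_e, hb]

/-- The even derivation with given values on the generators. -/
def ed (a : τ → Fr τ σ) (b : σ → Fr τ σ) : Fr τ σ →ₗ[ℂ] Fr τ σ :=
  ∑ t, LinearMap.mulLeft ℂ (a t) ∘ₗ do' t + ∑ s, LinearMap.mulLeft ℂ (b s) ∘ₗ dp s

theorem isED_ed {a : τ → Fr τ σ} {b : σ → Fr τ σ} (ha : ∀ t, sg (a t) = -a t)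
    (hb : ∀ s, sg (b s) = b s) : IsED (ed a b) :=
  (IsED.sum _ fun t _ => (isOD_do t).mulL' (ha t)).add
    (IsED.sum _ fun s _ => (isED_dp s).mulL' (hb s))

end Ext

end Fr

end

end Vale.Agent.P286.H166
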