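import Vale.Agent.P286.H166.Fr
import Vale.Agent.P286.H847.WkDef
import Vale.Agent.P286.H802.CW

/-!
# The differential of the Weil algebra, in the letters of `Fr`
-/

namespace Vale.Agent.P286.H166.WkD

open H847 Fr TensorProduct Matrix

noncomputable section

set_option linter.unusedSectionVars false

variable (I : Type) [Fintype I] [DecidableEq I] (n : ℕ)

/-- The ring. -/
abbrev RR : Type := Fr (Gn I n) (I × I)

/-- The matrix `θ`. -/
def Tm : Matrix I I (RR I n) := fun i j => o (Sum.inl (i, j))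

/-- The matrix `F`. -/
def Gm : Matrix I I (RR I n) := fun i j => e (i, j)

/-- The elements `y_t`. -/
def yy (t : Fin n) : RR I n := pl (H847.Wk.ep I (2 * ((t : ℕ) + 1)))

/-- The values on the odd generators. -/
def va : Gn I n → RR I n := Sum.elim (fun p => (Gm I n - Tm I n * Tm I n) p.1 p.2) (yy I n)

/-- The values on the even generators. -/
def vb (s : I × I) : RR I n := (Gm I n * Tm I n - Tm I n * Gm I n) s.1 s.2

/-- The differential. -/
def D : RR I n →ₗ[ℂ] RR I n := od (va I n) (vb I n)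

theorem D_eq : (H847.Wk.d I n : RR I n →ₗ[ℂ] RR I n) = D I n := rfl

variable {I n}

theorem sg_Tm (i j : I) : Fr.sg (Tm I n i j) = -Tm I n i j := sg_o _

theorem sg_Gm (i j : I) : Fr.sg (Gm I n i j) = Gm I n i j := sg_e _

theorem sgA_TT (i j : I) : Fr.sg ((Tm I n * Tm I n) i j) = (Tm I n * Tm I n) i j := by
  rw [Matrix.mul_apply, map_sum]
  refine Finset.sum_congr rfl fun k _ => ?_
  rw [map_mul, sg_Tm, sg_Tm, neg_mul_neg]

theorem sg_va (a : Gn I n) : Fr.sg (va I n a) = va I n a := by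
  rcases a with ⟨i, j⟩ | t
  · change Fr.sg (Gm I n i j - (Tm I n * Tm I n) i j) = Gm I n i j - (Tm I n * Tm I n) i j
    rw [map_sub, sg_Gm, sgA_TT]
  · exact sg_pl _

theorem sg_vb (s : I × I) : Fr.sg (vb I n s) = -vb I n s := by
  obtain ⟨i, j⟩ := s
  change Fr.sg ((Gm I n * Tm I n) i j - (Tm I n * Gm I n) i j) =
    -((Gm I n * Tm I n) i j - (Tm I n * Gm I n) i j)
  have h1 : Fr.sg ((Gm I n * Tm I n) i j) = -(Gm I n * Tm I n) i j := by
    rw [Matrix.mul_apply, map_sum, ← Finset.sum_neg_distrib]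
    refine Finset.sum_congr rfl fun k _ => ?_
    rw [map_mul, sg_Tm, sg_Gm, mul_neg]
  have h2 : Fr.sg ((Tm I n * Gm I n) i j) = -(Tm I n * Gm I n) i j := by
    rw [Matrix.mul_apply, map_sum, ← Finset.sum_neg_distrib]
    refine Finset.sum_congr rfl fun k _ => ?_
    rw [map_mul, sg_Tm, sg_Gm, neg_mul]
  rw [map_sub, h1, h2]
  abel

theorem isOD_D : IsOD (D I n) := isOD_od sg_va sg_vb

theorem sgA_D : SgA (D I n) := sgA_od sg_va sg_vb

theorem D_Tm (i j : I) : D I n (Tm I n i j) = (Gm I n - Tm I n * Tm I n) i j :=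
  od_o _ _ (Sum.inl (i, j))

theorem D_Gm (i j : I) : D I n (Gm I n i j) = (Gm I n * Tm I n - Tm I n * Gm I n) i j :=
  od_e _ _ (i, j)

theorem D_xi (t : Fin n) : D I n (o (Sum.inr t)) = yy I n t := od_o _ _ (Sum.inr t)

theorem D_mul_mat (A B : Matrix I I (RR I n)) :
    (A * B).map (D I n) = A.map (D I n) * B + A.map Fr.sg * B.map (D I n) := by
  ext i j
  rw [Matrix.map_apply, Matrix.mul_apply, map_sum, Matrix.add_apply, Matrix.mul_apply,
    Matrix.mul_apply, ← Finset.sum_add_distrib]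
  exact Finset.sum_congr rfl fun k _ => isOD_D.mul _ _

theorem Tm_sg : (Tm I n).map Fr.sg = -Tm I n := by ext i j; exact sg_Tm i j

theorem Gm_sg : (Gm I n).map Fr.sg = Gm I n := by ext i j; exact sg_Gm i j

theorem Tm_D : (Tm I n).map (D I n) = Gm I n - Tm I n * Tm I n := by ext i j; exact D_Tm i j

theorem Gm_D : (Gm I n).map (D I n) = Gm I n * Tm I n - Tm I n * Gm I n := by
  ext i j; exact D_Gm i j

theorem sub_D (A B : Matrix I I (RR I n)) :
    (A - B).map (D I n) = A.map (D I n) - B.map (D I n) := by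
  ext i j; exact map_sub (D I n) _ _

/-- The module structure over the polynomials. -/
@[reducible] def plMod : Module (Pl I) (RR I n) :=
  Module.compHom _ (pl : Pl I →ₐ[ℂ] RR I n).toRingHom

attribute [local instance] plMod

/-- The polynomials as operators. -/
def der : Derivation ℂ (Pl I) (RR I n) :=
  { toFun := fun f => D I n (pl f)
    map_add' := fun f g => by rw [map_add, map_add]
    map_smul' := fun c f => by rw [map_smul, map_smul]; rfl
    map_one_eq_zero' := by
      change D I n (pl 1) = 0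
      rw [map_one, isOD_D.one]
    leibniz' := fun f g => by
      change D I n (pl (f * g)) = pl f * D I n (pl g) + pl g * D I n (pl f)
      rw [map_mul, isOD_D.mul, sg_pl, pl_comm g, add_comm] }

theorem D_ep (k : ℕ) : D I n (pl (H847.Wk.ep I k)) = 0 := by
  unfold H847.Wk.ep
  split_ifs with h
  · refine H802.der_charpoly_coeff (k := ℂ) (der (I := I) (n := n)) (H847.Wk.Fp I)
      (fun i j => Tm I n i j) (fun i j => ?_) _
    change D I n (Gm I n i j) = _
    rw [D_Gm, Matrix.sub_apply, Matrix.mul_apply, Matrix.mul_apply, ← Finset.sum_sub_distrib]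
    refine Finset.sum_congr rfl fun l _ => ?_
    change _ = Gm I n i l * Tm I n l j - Gm I n l j * Tm I n i l
    rw [show Gm I n l j * Tm I n i l = Tm I n i l * Gm I n l j from pl_comm _ _]
  · rw [map_zero, map_zero]

theorem D_yy (t : Fin n) : D I n (yy I n t) = 0 := D_ep _

theorem D_D (x : RR I n) : D I n (D I n x) = 0 := by
  refine isOD_D.sq_zero sgA_D (fun a => ?_) (fun s => ?_) x
  · rcases a with ⟨i, j⟩ | t
    · have h : ((Gm I n - Tm I n * Tm I n).map (D I n)) = 0 := by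
        rw [sub_D, D_mul_mat, Tm_D, Gm_D, Tm_sg]
        noncomm_ring
      have h2 := congrFun (congrFun h i) j
      change D I n (D I n (Tm I n i j)) = 0
      rw [D_Tm]
      exact h2
    · rw [D_xi, D_yy]
  · obtain ⟨i, j⟩ := s
    have h : ((Gm I n * Tm I n - Tm I n * Gm I n).map (D I n)) = 0 := by
      rw [sub_D, D_mul_mat, D_mul_mat, Tm_D, Gm_D, Tm_sg, Gm_sg]
      noncomm_ring
    have h2 := congrFun (congrFun h i) j
    change D I n (D I n (Gm I n i j)) = 0
    rw [D_Gm]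
    exact h2

theorem dt_TT (u : Fin n) (i j : I) : do' (Sum.inr u) ((Tm I n * Tm I n) i j) = 0 := by
  rw [Matrix.mul_apply, map_sum]
  refine Finset.sum_eq_zero fun k _ => ?_
  have h : ∀ i j, do' (Sum.inr u : Gn I n) (Tm I n i j) = 0 := by
    intro i j
    rw [Tm, do_o, if_neg]
    exact fun h => Sum.inr_ne_inl h
  rw [(isOD_do _).mul, h, h, zero_mul, mul_zero, add_zero]

theorem e_D (u : Fin n) (x : RR I n) :
    do' (Sum.inr u : Gn I n) (D I n x) = -D I n (do' (Sum.inr u : Gn I n) x) := by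
  have hT : ∀ i j, do' (Sum.inr u : Gn I n) (Tm I n i j) = 0 := by
    intro i j
    rw [Tm, do_o, if_neg]
    exact fun h => Sum.inr_ne_inl h
  have h := ((isOD_do (σ := I × I) (Sum.inr u : Gn I n)).anti isOD_D (sgA_dt _) sgA_D).eq_zero
    (fun a => ?_) (fun s => ?_)
  · have h3 := congrArg (fun T : RR I n →ₗ[ℂ] RR I n => T x) h
    exact eq_neg_of_add_eq_zero_left h3
  · simp only [LinearMap.add_apply, LinearMap.comp_apply]
    rcases a with ⟨i, j⟩ | t
    · change do' _ (D I n (Tm I n i j)) + D I n (do' _ (Tm I n i j)) = 0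
      rw [D_Tm, hT, map_zero, add_zero, Matrix.sub_apply, map_sub, dt_TT, Gm, do_e, sub_zero]
    · rw [D_xi, yy, do_pl, do_o]
      split_ifs
      · rw [isOD_D.one, add_zero]
      · rw [map_zero, add_zero]
  · simp only [LinearMap.add_apply, LinearMap.comp_apply]
    obtain ⟨i, j⟩ := s
    rw [do_e, map_zero, add_zero]
    change do' _ (D I n (Gm I n i j)) = 0
    rw [D_Gm, Matrix.sub_apply, map_sub, Matrix.mul_apply, Matrix.mul_apply, map_sum, map_sum,
      ← Finset.sum_sub_distrib]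
    refine Finset.sum_eq_zero fun k _ => ?_
    rw [(isOD_do _).mul, (isOD_do _).mul, hT, hT, Gm, Gm, do_e, do_e, mul_zero, mul_zero,
      zero_mul, zero_mul, add_zero, sub_zero]

/-! ### Degrees -/

variable (I n) in
/-- The degree derivation. -/
def N : RR I n →ₗ[ℂ] RR I n :=
  ∑ a, ((H847.Wk.dg I n a : ℤ) : ℂ) • (LinearMap.mulLeft ℂ (o a) ∘ₗ do' a) +
    ∑ s : I × I, (2 : ℂ) • (LinearMap.mulLeft ℂ (e s) ∘ₗ dp s)

variable (I n) in
theorem N_eq : (H847.Wk.Nm I n : RR I n →ₗ[ℂ] RR I n) = N I n := rfl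

theorem isED_N : IsED (N I n) :=
  (IsED.sum _ fun a _ => ((isOD_do a).mulL' (sg_o a)).smul _).add
    (IsED.sum _ fun s _ => ((isED_dp s).mulL' (sg_e s)).smul _)

theorem N_o (a : Gn I n) : N I n (o a) = ((H847.Wk.dg I n a : ℤ) : ℂ) • o a := by
  rw [N, LinearMap.add_apply, LinearMap.sum_apply, LinearMap.sum_apply]
  simp only [LinearMap.smul_apply, LinearMap.comp_apply, LinearMap.mulLeft_apply, do_o, dp_o,
    mul_ite, mul_one, mul_zero, smul_ite, smul_zero, Finset.sum_ite_eq', Finset.mem_univ, if_true,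
    Finset.sum_const_zero, add_zero]

theorem N_e (s : I × I) : N I n (e s) = (2 : ℂ) • e s := by
  rw [N, LinearMap.add_apply, LinearMap.sum_apply, LinearMap.sum_apply]
  simp only [LinearMap.smul_apply, LinearMap.comp_apply, LinearMap.mulLeft_apply, do_e, dp_e,
    mul_ite, mul_one, mul_zero, smul_ite, smul_zero, Finset.sum_ite_eq', Finset.mem_univ, if_true,
    Finset.sum_const_zero, zero_add]

theorem sgC_N : SgC (N I n) :=
  isED_N.sgC (fun a => by rw [N_o, map_smul, sg_o, smul_neg]) fun s => by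
    rw [N_e, map_smul, sg_e]

theorem N_Tm (i j : I) : N I n (Tm I n i j) = (1 : ℂ) • Tm I n i j := by
  have := N_o (Sum.inl (i, j) : Gn I n)
  have h : ((H847.Wk.dg I n (Sum.inl (i, j)) : ℤ) : ℂ) = 1 := by
    simp [H847.Wk.dg]
  rwa [h] at this

theorem N_mul_eig {x z : RR I n} {a b : ℂ} (hx : N I n x = a • x) (hz : N I n z = b • z) :
    N I n (x * z) = (a + b) • (x * z) := by
  rw [isED_N.mul, hx, hz, smul_mul_assoc, mul_smul_comm, add_smul]

theorem N_pl {f : Pl I} {k : ℕ} (hf : f.IsHomogeneous k) :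
    N I n (pl f) = ((2 * k : ℕ) : ℂ) • pl f := by
  have h1 : ∀ (s : (I × I) →₀ ℕ), N I n (pl (MvPolynomial.monomial s 1)) =
      ((2 * s.degree : ℕ) : ℂ) • pl (MvPolynomial.monomial s 1) := by
    intro s
    induction s using Finsupp.induction_linear with
    | zero =>
      rw [MvPolynomial.monomial_zero', map_one, map_one, isED_N.one]
      simp
    | add s t hs ht =>
      have e1 : (MvPolynomial.monomial (s + t) (1 : ℂ)) =
          MvPolynomial.monomial s 1 * MvPolynomial.monomial t 1 := by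
        rw [MvPolynomial.monomial_mul, one_mul]
      rw [e1, map_mul, N_mul_eig hs ht, map_add]
      congr 1
      push_cast
      ring
    | single s k =>
      rw [Finsupp.degree_single]
      induction k with
      | zero =>
        rw [Finsupp.single_zero, MvPolynomial.monomial_zero', map_one, map_one, isED_N.one]
        simp
      | succ k ih =>
        have e1 : (MvPolynomial.monomial (Finsupp.single s (k + 1)) (1 : ℂ)) =
            MvPolynomial.monomial (Finsupp.single s k) 1 * MvPolynomial.X s := by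
          rw [MvPolynomial.X, MvPolynomial.monomial_mul, one_mul, Finsupp.single_add]
        have e2 : N I n (pl (MvPolynomial.X s)) = (2 : ℂ) • pl (MvPolynomial.X s) := N_e s
        rw [e1, map_mul, N_mul_eig ih e2]
        congr 1
        push_cast
        ring
  rw [f.as_sum, map_sum, map_sum, Finset.smul_sum]
  refine Finset.sum_congr rfl fun s hs => ?_
  have e1 : MvPolynomial.monomial s (f.coeff s) = f.coeff s • MvPolynomial.monomial s (1 : ℂ) := by
    rw [MvPolynomial.smul_monomial, smul_eq_mul, mul_one]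
  have e2 : s.degree = k := by
    have := hf (MvPolynomial.mem_support_iff.1 hs)
    rw [Finsupp.degree_eq_weight_one]
    exact this
  rw [e1, map_smul, map_smul, h1, e2, smul_comm]

theorem ep_hom (k : ℕ) : (H847.Wk.ep I k).IsHomogeneous k := by
  unfold H847.Wk.ep
  split_ifs with h
  · exact Matrix.charpoly.univ_coeff_isHomogeneous ℂ I _ _ (Nat.sub_add_cancel h)
  · exact MvPolynomial.isHomogeneous_zero _ _ _

theorem N_yy (t : Fin n) : N I n (yy I n t) = (4 * (t : ℂ) + 4) • yy I n t := by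
  rw [yy, N_pl (ep_hom _)]
  congr 1
  push_cast
  ring

theorem N_mat {A B : Matrix I I (RR I n)} {a b : ℂ} (hA : ∀ i j, N I n (A i j) = a • A i j)
    (hB : ∀ i j, N I n (B i j) = b • B i j) (i j : I) :
    N I n ((A * B) i j) = (a + b) • (A * B) i j := by
  rw [Matrix.mul_apply, map_sum, Finset.smul_sum]
  exact Finset.sum_congr rfl fun k _ => N_mul_eig (hA _ _) (hB _ _)

theorem N_Gm (i j : I) : N I n (Gm I n i j) = (2 : ℂ) • Gm I n i j := N_e _

theorem N_va (a : Gn I n) : N I n (va I n a) = (((H847.Wk.dg I n a : ℤ) : ℂ) + 1) • va I n a := by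
  rcases a with ⟨i, j⟩ | t
  · have h : ((H847.Wk.dg I n (Sum.inl (i, j)) : ℤ) : ℂ) = 1 := by simp [H847.Wk.dg]
    rw [h]
    change N I n (Gm I n i j - (Tm I n * Tm I n) i j) = (1 + 1 : ℂ) • (Gm I n i j - _)
    rw [map_sub, N_mat N_Tm N_Tm, N_Gm, smul_sub, one_add_one_eq_two]
  · change N I n (yy I n t) = _ • yy I n t
    rw [N_yy]
    congr 1
    simp only [H847.Wk.dg, Sum.elim_inr]
    push_cast
    ring

theorem N_vb (s : I × I) : N I n (vb I n s) = (2 + 1 : ℂ) • vb I n s := by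
  obtain ⟨i, j⟩ := s
  change N I n ((Gm I n * Tm I n) i j - (Tm I n * Gm I n) i j) =
    (2 + 1 : ℂ) • ((Gm I n * Tm I n) i j - (Tm I n * Gm I n) i j)
  rw [map_sub, N_mat N_Gm N_Tm, N_mat N_Tm N_Gm, smul_sub, add_comm (1 : ℂ) 2]

theorem N_D (x : RR I n) : N I n (D I n x) = D I n (N I n x) + D I n x := by
  have h := ((isED_N (I := I) (n := n)).comm_odd isOD_D sgC_N).ext isOD_D (fun a => ?_)
    (fun s => ?_)
  · have h3 := congrArg (fun T : RR I n →ₗ[ℂ] RR I n => T x) h
    exact sub_eq_iff_eq_add'.1 h3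
  · simp only [LinearMap.sub_apply, LinearMap.comp_apply]
    rw [N_o, map_smul, show D I n (o a) = va I n a from od_o _ _ a, N_va, add_smul, one_smul,
      add_sub_cancel_left]
  · simp only [LinearMap.sub_apply, LinearMap.comp_apply]
    rw [N_e, map_smul, show D I n (e s) = vb I n s from od_e _ _ s, N_vb, add_smul, one_smul,
      add_sub_cancel_left]

theorem N_do (a : Gn I n) (x : RR I n) :
    N I n (do' a x) = do' a (N I n x) - ((H847.Wk.dg I n a : ℤ) : ℂ) • do' a x := by
  have h := ((isED_N (I := I) (n := n)).comm_odd (isOD_do a) sgC_N).ext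
    ((isOD_do a).smul (-((H847.Wk.dg I n a : ℤ) : ℂ))) (fun b => ?_) (fun s => ?_)
  · have h3 := congrArg (fun T : RR I n →ₗ[ℂ] RR I n => T x) h
    simp only [LinearMap.sub_apply, LinearMap.comp_apply, LinearMap.smul_apply, neg_smul] at h3
    rw [sub_eq_iff_eq_add'] at h3
    rw [h3, sub_eq_add_neg]
  · simp only [LinearMap.sub_apply, LinearMap.comp_apply, LinearMap.smul_apply]
    rw [N_o, map_smul, do_o]
    split_ifs with hab
    · subst hab
      rw [isED_N.one, zero_sub, neg_smul]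
    · rw [map_zero, smul_zero, smul_zero, sub_zero]
  · simp only [LinearMap.sub_apply, LinearMap.comp_apply, LinearMap.smul_apply]
    rw [N_e, map_smul, do_e, map_zero, smul_zero, smul_zero, sub_zero]

/-! ### The homogeneous elements -/

variable (I n) in
/-- The elements of degree `m`. -/
def Gr (m : ℤ) : Submodule ℂ (RR I n) := LinearMap.ker (N I n - ((m : ℤ) : ℂ) • LinearMap.id)

theorem mem_Gr {m : ℤ} {x : RR I n} : x ∈ Gr I n m ↔ N I n x = ((m : ℤ) : ℂ) • x := by
  rw [Gr, LinearMap.mem_ker, LinearMap.sub_apply, LinearMap.smul_apply, LinearMap.id_apply,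
    sub_eq_zero]

theorem D_Gr {m : ℤ} {x : RR I n} (hx : x ∈ Gr I n m) : D I n x ∈ Gr I n (m + 1) := by
  rw [mem_Gr] at hx ⊢
  rw [N_D, hx, map_smul, Int.cast_add, Int.cast_one, add_smul, one_smul]

theorem mul_Gr {m p : ℤ} {x z : RR I n} (hx : x ∈ Gr I n m) (hz : z ∈ Gr I n p) :
    x * z ∈ Gr I n (m + p) := by
  rw [mem_Gr] at hx hz ⊢
  rw [N_mul_eig hx hz, Int.cast_add]

theorem do_Gr (a : Gn I n) {m : ℤ} {x : RR I n} (hx : x ∈ Gr I n m) :
    do' a x ∈ Gr I n (m - H847.Wk.dg I n a) := by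
  rw [mem_Gr] at hx ⊢
  rw [N_do, hx, map_smul, Int.cast_sub, sub_smul]

theorem one_Gr : (1 : RR I n) ∈ Gr I n 0 := by
  rw [mem_Gr, isED_N.one, Int.cast_zero, zero_smul]

theorem o_Gr (a : Gn I n) : (o a : RR I n) ∈ Gr I n (H847.Wk.dg I n a) := by
  rw [mem_Gr, N_o]

theorem e_Gr (s : I × I) : (e s : RR I n) ∈ Gr I n 2 := by
  rw [mem_Gr, N_e, Int.cast_ofNat]

theorem pl_Gr {f : Pl I} {k : ℕ} (hf : f.IsHomogeneous k) : (pl f : RR I n) ∈ Gr I n (2 * k) := by
  rw [mem_Gr, N_pl hf]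
  push_cast
  rfl

theorem yy_Gr (t : Fin n) : yy I n t ∈ Gr I n (4 * (t : ℤ) + 4) := by
  rw [mem_Gr, N_yy]
  push_cast
  rfl

/-- The components of different degrees are independent. -/
theorem Gr_indep : iSupIndep (Gr I n) := by
  have h := Module.End.eigenspaces_iSupIndep (N I n)
  have h2 := h.comp (f := fun m : ℤ => ((m : ℤ) : ℂ)) Int.cast_injective
  have h3 : (fun m : ℤ => Module.End.eigenspace (N I n) ((m : ℤ) : ℂ)) = Gr I n := by
    funext m
    ext x
    rw [mem_Gr, Module.End.mem_eigenspace_iff]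
  exact h3 ▸ h2

theorem iSup_Gr : ⨆ m, Gr I n m = ⊤ := by
  rw [eq_top_iff]
  intro x _
  induction x using indo with
  | hp f =>
    rw [f.as_sum, map_sum]
    refine Submodule.sum_mem _ fun s _ => ?_
    exact Submodule.mem_iSup_of_mem (2 * (s.degree : ℤ))
      (pl_Gr (MvPolynomial.isHomogeneous_monomial _ rfl))
  | ho a x hx =>
    have : x ∈ (⨆ m, Gr I n m).comap (LinearMap.mulLeft ℂ (o a)) ↔ o a * x ∈ ⨆ m, Gr I n m :=
      Iff.rfl
    rw [← this]
    have hle : ⨆ m, Gr I n m ≤ (⨆ m, Gr I n m).comap (LinearMap.mulLeft ℂ (o a)) :=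
      iSup_le fun m z hz => Submodule.mem_iSup_of_mem _ (mul_Gr (o_Gr a) hz)
    exact hle (hx trivial)
  | hs c x hx => exact Submodule.smul_mem _ _ (hx trivial)
  | ha x y hx hy => exact Submodule.add_mem _ (hx trivial) (hy trivial)

theorem dg_odd (a : Gn I n) : Odd (H847.Wk.dg I n a) := by
  rcases a with p | t
  · exact odd_one
  · exact ⟨2 * (t : ℤ) + 1, by simp only [H847.Wk.dg, Sum.elim_inr]; ring⟩

variable (I n) in
/-- The elements on which the sign is `(-1)^m` and of degree `m`. -/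
def Gs (m : ℤ) : Submodule ℂ (RR I n) :=
  Gr I n m ⊓ LinearMap.ker (Fr.sg.toLinearMap - ((m.negOnePow : ℤ) : ℂ) • LinearMap.id)

theorem mem_Gs {m : ℤ} {x : RR I n} :
    x ∈ Gs I n m ↔ x ∈ Gr I n m ∧ Fr.sg x = ((m.negOnePow : ℤ) : ℂ) • x := by
  rw [Gs, Submodule.mem_inf, LinearMap.mem_ker, LinearMap.sub_apply, LinearMap.smul_apply,
    LinearMap.id_apply, sub_eq_zero]
  rfl

theorem iSup_Gs : ⨆ m, Gs I n m = ⊤ := by
  rw [eq_top_iff]
  intro x _
  induction x using indo with
  | hp f =>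
    rw [f.as_sum, map_sum]
    refine Submodule.sum_mem _ fun s _ => ?_
    refine Submodule.mem_iSup_of_mem (2 * (s.degree : ℤ)) (mem_Gs.2
      ⟨pl_Gr (MvPolynomial.isHomogeneous_monomial _ rfl), ?_⟩)
    rw [sg_pl, Int.negOnePow_even _ (even_two_mul _)]
    simp
  | ho a x hx =>
    have : x ∈ (⨆ m, Gs I n m).comap (LinearMap.mulLeft ℂ (o a)) ↔ o a * x ∈ ⨆ m, Gs I n m :=
      Iff.rfl
    rw [← this]
    have hle : ⨆ m, Gs I n m ≤ (⨆ m, Gs I n m).comap (LinearMap.mulLeft ℂ (o a)) := by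
      refine iSup_le fun m z hz => Submodule.mem_iSup_of_mem (H847.Wk.dg I n a + m)
        (mem_Gs.2 ⟨mul_Gr (o_Gr a) (mem_Gs.1 hz).1, ?_⟩)
      rw [LinearMap.mulLeft_apply, map_mul, sg_o, (mem_Gs.1 hz).2, mul_smul_comm, neg_mul,
        Int.negOnePow_add, Int.negOnePow_odd _ (dg_odd a), smul_neg, ← neg_smul]
      congr 1
      push_cast
      ring
    exact hle (hx trivial)
  | hs c x hx => exact Submodule.smul_mem _ _ (hx trivial)
  | ha x y hx hy => exact Submodule.add_mem _ (hx trivial) (hy trivial)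

theorem Gs_eq : Gs I n = Gr I n := by
  have h1 : ∀ m, Gs I n m ≤ Gr I n m := fun m => inf_le_left
  funext m
  refine le_antisymm (h1 m) ?_
  have h2 : Gr I n m = (Gs I n m ⊔ ⨆ (k) (_ : k ≠ m), Gs I n k) ⊓ Gr I n m := by
    rw [← iSup_split_single, iSup_Gs, top_inf_eq]
  rw [h2, sup_inf_assoc_of_le _ (h1 m)]
  refine sup_le le_rfl ?_
  have h3 : (⨆ (k) (_ : k ≠ m), Gs I n k) ≤ ⨆ (k) (_ : k ≠ m), Gr I n k :=
    iSup_mono fun k => iSup_mono fun _ => h1 k
  have h4 := (Gr_indep (I := I) (n := n) m).symm.mono_left h3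
  rw [h4.eq_bot]
  exact bot_le

theorem sg_Gr (m : ℤ) {x : RR I n} (hx : x ∈ Gr I n m) : Fr.sg x = (m.negOnePow : ℤ) • x := by
  rw [← Gs_eq] at hx
  rw [(mem_Gs.1 hx).2, Int.cast_smul_eq_zsmul]

end

end Vale.Agent.P286.H166.WkD
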